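import Vale.Agent.N352.EP.Base

/-!
# N352, block EP: covariance without finite scaling laws
-/

set_option linter.all false

open MeasureTheory Filter Topology
open scoped SchwartzMap ComplexConjugate ContDiff

namespace Vale.Agent.N352.EP

open Vale.Agent.P352 Vale.Agent.P352.GF Vale.Agent.P352.BW Vale.Agent.P352.H246
open Vale.Agent.P352.H496 Vale.Agent.P352.H755 Vale.Agent.P352.H15
open Vale.Agent.P352.SubConf (IsAdj)
open Vale.Agent.P352X Vale.Agent.P352X.EB
open Vale.Agent.P352X.EB.NA (ul zz_le)
open UniformSpace (Completion)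
open Complex (I)

noncomputable section

variable {D : Type*} [NormedAddCommGroup D] [InnerProductSpace ℂ D] {c : Cf D}

/-- **row COV0 from covariance** -/
theorem cov0_of (h : ∀ s L a, 0 < s → IsLor L → H246.Cov c.Q s L a) : COV0 c := by
  intro B B' hB hB' hA g
  obtain ⟨n, κ, A, hA', e⟩ := (h _ _ g.inv.a g.inv.hs g.inv.hL).2 B hB
  choose q p1 _ hq using fun i => ex_split (hA' i)
  have t := sg_row c
  have pl : ∀ f : Fn, (fun x => g.pull f (sim g.inv.s g.inv.L g.inv.a x)) = f := fun f =>
    funext fun x => congrArg f (t.act_inv ⟨g, false⟩ x)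
  let W := ul c.Q g
  let W' := ul c.Q g.inv
  have gW : ∀ v, W (c.G v) = c.G (W v) := fun v => c.hN.GU _ _ _ v g.hs g.hL
  -- the sign
  obtain ⟨b, hb⟩ : ∃ b : Bool, ∀ v, W (W' v) = cond b (c.G v) v :=
    (U_U c g).elim (fun h => ⟨false, h⟩) fun h => ⟨true, h⟩
  have hb' : ∀ v, W' (W v) = cond b (c.G v) v := fun v => U_inj c g (by
    show W _ = W _
    rw [hb]
    cases b
    exacts [rfl, (gW v).symm])
  let ι := Fin n × Bool
  let E := (Fintype.equivFin ι).symm
  have key : ∀ f v, IsTest f → B f (c.Q.U g.s g.L g.a v) = ∑ i, (κ (E i).1 * sg (b && (E i).2)) •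
      c.Q.U g.s g.L g.a ((q (E i).1 (E i).2).B (g.pull f) v) := fun f v hf => by
    have tf := test_pull g hf
    rw [E.sum_comp fun j : ι => (κ j.1 * sg (b && j.2)) •
      c.Q.U g.s g.L g.a ((q j.1 j.2).B (g.pull f) v), Fintype.sum_prod_type]
    have e1 := congrArg W (e (g.pull f) (W v) tf)
    rw [pl] at e1
    change W (W' (B f (W v))) = W (∑ i, κ i • A i (g.pull f) (W' (W v))) at e1
    rw [hb, hb', map_sum] at e1
    cases b
    · refine Eq.trans e1 (Finset.sum_congr rfl fun i _ => ?_)
      rw [map_smul, hq i _ _ tf, map_add, smul_add, Fintype.sum_bool, add_comm]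
      simp only [Bool.false_and, sg_false, mul_one]
      rfl
    · refine ((c.hN.inv _).symm.trans (congrArg (gl c) e1)).trans ?_
      rw [map_sum]
      refine Finset.sum_congr rfl fun i _ => ?_
      have a1 := (q i false).par _ v tf
      have a2 := (q i true).par _ v tf
      rw [p1, sg_false, one_smul] at a1
      rw [p1, sg_true, neg_one_smul] at a2
      have gg : ∀ z, gl c (W (c.G z)) = W z := fun z => by
        rw [gW]
        exact c.hN.inv _
      rw [map_smul, map_smul, hq i _ _ tf, Fintype.sum_bool]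
      simp only [cond_true, a1, a2, map_add, map_neg, gg, Bool.true_and, sg_false, sg_true, mul_one,
        mul_neg, neg_smul, smul_add, smul_neg]
      exact add_comm _ _
  exact ⟨_, fun i => q (E i).1 (E i).2, _, fun f v hf => ⟨key f v hf,
    Bas.sadj t _ _ _ _ _ _ _ _ _ g.hs g.hL hA (fun i => (q (E i).1 (E i).2).a) key f v hf⟩⟩


end

end Vale.Agent.N352.EP
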