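import Vale.Agent.N352.EP.Sec
import Vale.Agent.P352L.Final
import Vale.Agent.P352X.EG.POT

/-!
# N352, block EP: strong locality of the stress tensor, no logarithms, the potential
-/

set_option linter.all false

open MeasureTheory Filter Topology
open scoped SchwartzMap ComplexConjugate ContDiff

namespace Vale.Agent.N352.EP

open Vale.Agent.P352 Vale.Agent.P352.GF Vale.Agent.P352.BW Vale.Agent.P352.H246
open Vale.Agent.P352.H496 Vale.Agent.P352.H755 Vale.Agent.P352.H15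
open Vale.Agent.P352.SubConf (IsAdj)
open Vale.Agent.P352X Vale.Agent.P352X.EB Vale.Agent.P352L
open UniformSpace (Completion)
open Complex (I)
open ContinuousLinearMap (adjoint)

noncomputable section

variable {D : Type*} [NormedAddCommGroup D] [InnerProductSpace ℂ D]

/-- **Strong locality of the stress tensor.** -/
def SL (Q : Theory D) (T : Ix → Ix → Fld D) : Prop :=
  ∀ a b m n f, IsNull a → IsNull b → GF.mdot a b = 1 → In (Wdg a b 0) f → bar f = f →
    ∃ M : VonNeumannAlgebra (Completion D), Aff M (T m n f) ∧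
      ∀ B g, Q.fld B → In (Wdg b a 0) g → Aff M.commutant (B g)

/-- **Strong locality of the stress tensor**, with one algebra for each wedge -/
def SL1 (Q : Theory D) (T : Ix → Ix → Fld D) : Prop :=
  ∀ a b, IsNull a → IsNull b → GF.mdot a b = 1 → ∃ M : VonNeumannAlgebra (Completion D),
    (∀ s, 0 < s → ∀ X ∈ M, ∃ Y ∈ M, ∀ z, Y (Ue Q s GF.one 0 z) = Ue Q s GF.one 0 (X z)) ∧
    (∀ m n f, In (Wdg a b 0) f → Aff M (T m n f)) ∧
      ∀ B g, Q.fld B → In (Wdg b a 0) g → Aff M.commutant (B g)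

/-- the weak commutant of all fields in the region `O` -/
def Ca (Q : Theory D) (O : Set V) : Set (Completion D →L[ℂ] Completion D) :=
  {Y | ∀ B B' f, Q.fld B → IsAdj B B' → In O f → ∀ v w : D,
    inner ℂ ((B' (bar f) w : D) : Completion D) (Y v) =
      inner ℂ (w : Completion D) (Y (B f v : D))}

variable (c : Cf D)

/-- the local algebras of the stress tensor -/
structure AW (N : Set V → VonNeumannAlgebra (Completion D)) : Prop where
  mono : ∀ O O', O ⊆ O' → ∀ X ∈ N O, X ∈ N O'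
  cov : ∀ (g : Sh c) O, ∀ X ∈ N O, g.U c * X * star (g.U c) ∈ N (g.act '' O)
  gam : ∀ O, ∀ X ∈ N O, c.Γ * X = X * c.Γ
  wk : ∀ X ∈ N W0, X ∈ Ca c.Q W1
  loc : ∀ X ∈ N W0, ∀ Y ∈ N W1, X * Y = Y * X

/-- the potential of the trace -/
structure Pot (T : Ix → Ix → Fld D) (N : Set V → VonNeumannAlgebra (Completion D))
    (l : Fn → Completion D) : Prop where
  pot : IsPot c.Q T l
  tm : ∃ k, ∀ f, In W0 f → Tm (N W0) c.Om k (l f) (l (bar f))
  mix : ∃ S : Submodule ℂ (Completion D),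
    (∀ m n f, IsTest f → ((T m n f c.Q.vac : D) : Completion D) ∈ S) ∧
    (∀ f, IsTest f → l f ∈ S) ∧ ∀ ξ ∈ S, ∀ w, Tendsto (fun r : ℝ =>
      inner ℂ ξ (Ue c.Q (Real.sqrt (r * 1)) (TPD.Lsc r 1) 0 w)) (𝓝[>] 0)
        (𝓝 (inner ℂ ξ c.Om * inner ℂ c.Om w))

variable {c}

namespace Ca

variable {Q : Theory D} {O O' : Set V} {Y Y' : Completion D →L[ℂ] Completion D}

theorem one : 1 ∈ Ca Q O := fun B B' f _ a hf v w => by
  rw [ContinuousLinearMap.one_apply, ContinuousLinearMap.one_apply, Completion.inner_coe,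
    Completion.inner_coe, ← inner_conj_symm, ← a f v w hf.1, inner_conj_symm]

theorem add (h : Y ∈ Ca Q O) (h' : Y' ∈ Ca Q O) : Y + Y' ∈ Ca Q O := fun B B' f b a hf v w => by
  simp only [ContinuousLinearMap.add_apply, inner_add_right, h B B' f b a hf, h' B B' f b a hf]

theorem smul (s : ℂ) (h : Y ∈ Ca Q O) : s • Y ∈ Ca Q O := fun B B' f b a hf v w => by
  simp only [ContinuousLinearMap.smul_apply, inner_smul_right, h B B' f b a hf]

theorem anti (e : O ⊆ O') (h : Y ∈ Ca Q O') : Y ∈ Ca Q O := fun B B' f b a hf =>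
  h B B' f b a ⟨hf.1, hf.2.1, hf.2.2.trans e⟩

theorem star (h : Y ∈ Ca Q O) : star Y ∈ Ca Q O := fun B B' f b a hf v w => by
  obtain ⟨C, p, q⟩ := Q.adj B b
  have := h C B _ p (fun g v w hg => by
    rw [← inner_conj_symm, ← bar_bar g, ← q _ _ _ (isTest_bar hg), inner_conj_symm, bar_bar])
    hf.bar w v
  rw [bar_bar, show C (bar f) w = B' (bar f) w from
    ext_inner_left ℂ fun u => by rw [← q f u w hf.1, a f u w hf.1]] at this
  rw [ContinuousLinearMap.star_eq_adjoint, ContinuousLinearMap.adjoint_inner_right,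
    ContinuousLinearMap.adjoint_inner_right, ← inner_conj_symm, ← this, inner_conj_symm]

open EG.WCp (in_tr tr0 of_cl test_tr) in
theorem mul (eb : EBd c.Q) (hO : IsOpen O) (h : Y ∈ Ca c.Q O) (h' : Y' ∈ Ca c.Q O) :
    Y * Y' ∈ Ca c.Q O := fun B B' f b a hf v w => by
  obtain ⟨C, p, q⟩ := c.Q.adj B b
  obtain ⟨ε, hε, k⟩ := in_tr hO hf
  have := gr_row (e0_thm c) eb ⊤ B C f (Y' v)
    (fun a => Y' (B (fun x => f (sim 1 GF.one a x)) v : D)) ε hε b p q
    ⟨hf.1, hf.2.1, Set.subset_univ _⟩ (fun _ _ _ => trivial) (fun _ _ => trivial)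
    (by simpa using Completion.denseRange_coe _) (Y'.continuous.comp (cont_tr b hf.1 v))
    fun a ha => ⟨by simpa using Completion.denseRange_coe _, fun s _ => h' B C _ b q (k a ha) v s⟩
  simp only [tr0] at this
  exact of_cl (φ := innerSL ℂ ((B' (bar f) w : D) : Completion D) ∘L Y)
    (ψ := innerSL ℂ (w : Completion D) ∘L Y) this fun s => h B B' f b a hf s w

/-- covariance -/
theorem cov (g : Sg) (hC : Cov c.Q g.s g.L g.a) (h : Y ∈ Ca c.Q O) :
    Star.star (SGx.U0 c g) * Y * SGx.U0 c g ∈ Ca c.Q (g.act ⁻¹' O) := fun B B' f b a hf v w => by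
  have t := sg_row c
  obtain ⟨n, κ, C, p, q⟩ := hC.2 B b
  choose C' _ r using fun i => c.Q.adj _ (p i)
  have hi : In O (g.inv.pull f) := by
    obtain ⟨h1, h2, h3⟩ := t.inn ⟨g.inv, false⟩ _ f hf
    exact ⟨h1, h2, fun x hx => g.act_inv x ▸ h3 hx⟩
  have e0 : (fun x => g.inv.pull f (sim g.s g.L g.a x)) = f :=
    funext fun x => congrArg f (g.inv_act x)
  have e1 := fun v => q _ v hi.1
  simp only [e0] at e1
  have e2 : c.Q.U g.s g.L g.a (B' (bar f) w) =
      ∑ i, conj (κ i) • C' i (bar (g.inv.pull f)) (c.Q.U g.s g.L g.a w) := by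
    refine ext_inner_left ℂ fun z => ?_
    obtain ⟨z, rfl⟩ := Bas.surj t g.a g.hs g.hL z
    rw [c.Q.U_inner _ _ _ _ _ g.hs g.hL, ← a f z w hf.1, ← c.Q.U_inner _ _ g.a _ _ g.hs g.hL, e1]
    simp only [sum_inner, inner_sum, inner_smul_left, inner_smul_right,
      fun i x y => r i _ x y hi.1]
  simp only [ContinuousLinearMap.mul_apply, ContinuousLinearMap.star_eq_adjoint,
    ContinuousLinearMap.adjoint_inner_right, t.coe _ _ _ _ g.hs g.hL, e1, e2, Fin'.coe_sum,
    Completion.coe_smul, sum_inner, inner_sum, map_sum, map_smul, inner_smul_left,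
    inner_smul_right, Complex.conj_conj, fun i => h _ _ _ (p i) (r i) hi]

end Ca

/-- the minimal net -/
def Nm (Q : Theory D) (O : Set V) : VonNeumannAlgebra (Completion D) where
  toStarSubalgebra := StarSubalgebra.centralizer ℂ (Ca Q O)
  centralizer_centralizer' := by simp

theorem mem_nm {Q : Theory D} {O : Set V} {x : Completion D →L[ℂ] Completion D} :
    x ∈ Nm Q O ↔ ∀ y ∈ Ca Q O, y * x = x * y :=
  (StarSubalgebra.mem_centralizer_iff ℂ).trans
    ⟨fun h y hy => (h y hy).1, fun h y hy => ⟨h y hy, h _ (Ca.star hy)⟩⟩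

theorem nm_com (eb : EBd c.Q) {O : Set V} (hO : IsOpen O) :
    ∀ Y ∈ (Nm c.Q O).commutant, Y ∈ Ca c.Q O := fun Y hY B B' f b a hf =>
  (EG.bic_row D (Ca c.Q O) _ _ _ Ca.one (fun _ h _ => Ca.mul eb hO h) (fun _ => Ca.star)
    (fun x => mem_nm.2) (fun v w => a f v w hf.1) fun Y hY => hY B B' f b a hf).2 Y hY

open Fss hiding U_dil u_inv inv_u u_adj dl_herm dl_cov dl_cons dl_charge dl_pch
open StA Fss.G P352R
open P352L.Gd (un)

variable {T : Ix → Ix → Fld D} {TT : ℝ → Ix → Ix → Fld D} {n0 : ℕ}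

/-- one tensor as a family -/
abbrev u2 (T : Ix → Ix → Fld D) (p : Ix × Ix) : Fld D := T p.1 p.2

theorem sl_nm (hT : Stress0 c.Q T) (sl : SL c.Q T) {a b : V} (ha : IsNull a) (hb : IsNull b)
    (hab : GF.mdot a b = 1) : ∀ Y ∈ Nm c.Q (Wdg b a 0), Y ∈ Wc (u2 T) (Wdg a b 0) := by
  intro Y hY p f hf v w
  have fl := c.Q.bose_fld _ (hT.bose p.1 p.2)
  have k : ∀ z : ℂ, inner ℂ ((z • u2 T p f w + conj z • u2 T p (bar f) w : D) : Completion D) (Y v) =
      inner ℂ (w : Completion D) (Y (z • u2 T p f v + conj z • u2 T p (bar f) v : D)) := fun z => by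
    have i := Ap.in_lin (conj z) (Ap.in_cmul z hf) hf.bar
    have e : bar (fun x => z * f x + conj z * bar f x) = fun x => z * f x + conj z * bar f x :=
      funext fun x => by simp [bar, add_comm, mul_comm]
    obtain ⟨M, m1, m2⟩ := sl a b p.1 p.2 _ ha hb hab i e
    have := (afs_of_aff (fun v w => hT.herm p.1 p.2 _ v w i.1) m1).2 Y
      (VonNeumannAlgebra.mem_commutant_iff.2 fun X hX => mem_nm.1 hY X fun B B' g q r s =>
        (afs_of_aff (fun v w => r g v w s.1) (m2 B g q s)).2 X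
          (by rwa [VonNeumannAlgebra.commutant_commutant])) v w
    simpa only [e, c.Q.lin _ _ _ _ _ fl (Ap.sw_cmul z hf.1) hf.bar.1, lin1 fl hf.1] using this
  have k1 := k 1
  have k2 := k I
  simp only [Completion.coe_add, Completion.coe_smul, map_add, map_smul, inner_add_left,
    inner_add_right, inner_smul_left, inner_smul_right, map_one, Complex.conj_I, map_neg, neg_neg,
    one_mul] at k1 k2
  refine mul_left_cancel₀ Complex.I_ne_zero ?_
  linear_combination (I / 2) * k1 + (1 / 2) * k2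

/-- the dilations -/
abbrev ud (c : Cf D) (s : ℝ) : Completion D →L[ℂ] Completion D := Ug c.Q s GF.one 0

theorem ud_coe {s : ℝ} (hs : 0 < s) (v : D) : ud c s v = (u c.Q s hs v : D) :=
  Grp.coe hs H496.isLor_one 0 v

theorem ud_inv {s : ℝ} (hs : 0 < s) : ud c s * ud c s⁻¹ = 1 := EG.SGx.dext fun v => by
  rw [ContinuousLinearMap.mul_apply, ud_coe (inv_pos.2 hs), ud_coe hs, u_inv (Fsg.m1 c)]
  rfl

theorem ud_star {s : ℝ} (hs : 0 < s) : star (ud c s) = ud c s⁻¹ :=
  (Grp.uni_of (Grp.ug_inner hs H496.isLor_one 0) (ud_inv hs)).2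

theorem dil_w {s : ℝ} (hs : 0 < s) (a b x : V) :
    sim s GF.one 0 x ∈ Wdg a b 0 ↔ x ∈ Wdg a b 0 := by
  simp only [Wdg, Set.mem_setOf_eq, sim_dil, zero_add, sub_zero, H755.md_smul]
  exact and_congr ⟨fun h => (pos_iff_neg_of_mul_neg h).1 hs, mul_neg_of_pos_of_neg hs⟩
    (mul_pos_iff_of_pos_left hs)

theorem ca_dil (hF : Cw.Cd c.Q) {s : ℝ} (hs : 0 < s) (a b : V) :
    ∀ Y ∈ Ca c.Q (Wdg a b 0), star (ud c s) * Y * ud c s ∈ Ca c.Q (Wdg a b 0) := fun Y hY =>
  Ca.anti (fun x hx => (dil_w hs a b x).2 hx)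
    (Ca.cov ⟨s, GF.one, 0, hs, H496.isLor_one⟩ (hF s hs) hY)

theorem ud_ue {s : ℝ} (hs : 0 < s) (z : Completion D) : ud c s z = Ue c.Q s GF.one 0 z :=
  Ug_apply _ hs H496.isLor_one _ _

theorem ud_inv' {s : ℝ} (hs : 0 < s) : ud c s⁻¹ * ud c s = 1 := by
  simpa only [inv_inv] using ud_inv (c := c) (inv_pos.2 hs)

/-- with energy bounds for all fields, the algebra can be chosen independent of `f` -/
theorem sl1_of (hT : Stress0 c.Q T) (hF : Cw.Cd c.Q) (hE : EBd c.Q) (sl : SL c.Q T) :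
    SL1 c.Q T := fun a b ha hb hab => by
  have k := nm_com hE (open_Wdg b a 0)
  refine ⟨(Nm c.Q (Wdg b a 0)).commutant, fun s hs X hX => ⟨_, VonNeumannAlgebra.mem_commutant_iff.2
    fun Z hZ => (mem_nm.1 hZ _ (ca_dil hF (inv_pos.2 hs) b a X (k X hX))).symm, fun z => ?_⟩,
    fun m n f hf => ⟨_, fun v w => hT.herm m n f v w hf.1, fun Y hY => sl_nm hT sl ha hb hab Y
      (by rwa [VonNeumannAlgebra.commutant_commutant] at hY) (m, n) f hf⟩, fun B g hB hg => ?_⟩
  · rw [← ud_ue hs, ← ud_ue hs, ud_star (inv_pos.2 hs), inv_inv, ← ContinuousLinearMap.mul_apply,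
      mul_assoc, ud_inv' hs, mul_one]
    rfl
  · obtain ⟨B', -, q⟩ := c.Q.adj B hB
    exact ⟨_, fun v w => q g v w hg.1, fun Y hY =>
      k Y (by rwa [VonNeumannAlgebra.commutant_commutant] at hY) B B' g hB q hg⟩

theorem wc_tt {F : Ix → Ix → Finset (ℂ × ℕ)} {C : Ix → Ix → ℂ × ℕ → Fld D}
    (hC : ∀ m n, Scl c.Q (T m n) (F m n) (C m n)) {𝒮 : Set (Completion D →L[ℂ] Completion D)}
    {a b : V} (h1 : ∀ s, 0 < s → ∀ Y ∈ 𝒮, star (ud c s) * Y * ud c s ∈ 𝒮)
    (h2 : ∀ Y ∈ 𝒮, Y ∈ Wc (u2 T) (Wdg a b 0)) :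
    ∀ Y ∈ 𝒮, Y ∈ Wc (un fun τ m n => StA.TT (F m n) (C m n) τ) (Wdg a b 0) := by
  rintro Y hY ⟨τ, m, n⟩ f hf v w
  obtain ⟨M, S, e, -, hc⟩ := ex_sel F
  have R := Fsg.m1 c
  have k : ∀ s (hs : 0 < s), inner ℂ ((dl c.Q s hs (T m n) (bar f) w : D) : Completion D) (Y v) =
      inner ℂ (w : Completion D) (Y (dl c.Q s hs (T m n) f v : D)) := fun s hs => by
    have i : In (Wdg a b 0) (ds s f) :=
      H496.In.mono (fun x hx => (dil_w hs a b x).1 hx) (Ap.in_sim hs H496.isLor_one 0 hf)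
    have := h2 _ (h1 s hs Y hY) (m, n) _ i (u c.Q s⁻¹ (inv_pos.2 hs) v) (u c.Q s⁻¹ (inv_pos.2 hs) w)
    simp only [ContinuousLinearMap.mul_apply, ContinuousLinearMap.star_eq_adjoint,
      ContinuousLinearMap.adjoint_inner_right, ud_coe hs, u_inv R] at this
    exact this
  simp only [un, tt_fm (hC m n) R (hc m n).1 τ hf.1, tt_fm (hC m n) R (hc m n).2 τ hf.bar.1,
    Fin'.coe_sum, Completion.coe_smul, sum_inner, inner_sum, map_sum, map_smul, inner_smul_left,
    inner_smul_right, Complex.conj_conj, k]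

variable (c) in
/-- the family is strongly local relative to the fields -/
structure Rl {ι : Type*} (X : ι → Fld D) : Prop where
  nm : ∀ a b, IsNull a → IsNull b → GF.mdot a b = 1 → ∃ M : VonNeumannAlgebra (Completion D),
    (∀ Y ∈ M.commutant, Y ∈ Wc X (Wdg a b 0)) ∧ ∀ Y ∈ M, Y ∈ Ca c.Q (Wdg b a 0)
  ca : ∀ a b, ∀ Y ∈ Ca c.Q (Wdg a b 0), Y ∈ Wc X (Wdg a b 0)

theorem rl_tt (hT : Stress0 c.Q T) (sl : SL1 c.Q T) (hF : Cw.Cd c.Q)
    {F : Ix → Ix → Finset (ℂ × ℕ)} {C : Ix → Ix → ℂ × ℕ → Fld D}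
    (hC : ∀ m n, Scl c.Q (T m n) (F m n) (C m n)) :
    Rl c (un fun τ m n => StA.TT (F m n) (C m n) τ) := by
  refine ⟨fun a b ha hb hab => ?_, fun a b => wc_tt hC (fun s hs => ca_dil hF hs a b)
    fun Y hY p f => hY _ _ f (c.Q.bose_fld _ (hT.bose _ _)) (hT.herm _ _)⟩
  obtain ⟨M, m0, m1, m2⟩ := sl a b ha hb hab
  refine ⟨M, wc_tt hC (𝒮 := M.commutant) (fun s hs Y hY =>
    VonNeumannAlgebra.mem_commutant_iff.2 fun X hX => ?_) fun Y hY p f hf =>
      (afs_of_aff (fun v w => hT.herm p.1 p.2 f v w hf.1) (m1 _ _ f hf)).2 Y hY,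
    fun Y hY B B' g q r s => (afs_of_aff (fun v w => r g v w s.1) (m2 B g q s)).2 Y
      (by rwa [VonNeumannAlgebra.commutant_commutant])⟩
  obtain ⟨Z, z1, z2⟩ := m0 s hs X hX
  have e : X = ud c s⁻¹ * Z * ud c s := by
    rw [mul_assoc, show Z * ud c s = ud c s * X from ContinuousLinearMap.ext fun z => by
      simp only [ContinuousLinearMap.mul_apply, ud_ue hs, z2], ← mul_assoc, ud_inv' hs, one_mul]
  have k : ∀ W, ud c s * (ud c s⁻¹ * W) = W := fun W => by rw [← mul_assoc, ud_inv hs, one_mul]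
  rw [e, ud_star hs]
  simp only [mul_assoc, k]
  rw [← mul_assoc Z, VonNeumannAlgebra.mem_commutant_iff.1 hY Z z1, mul_assoc]

theorem Rl.wk {ι : Type*} {X : ι → Fld D} (r : Rl c X) {a b : V} (ha : IsNull a)
    (hb : IsNull b) (hab : GF.mdot a b = 1) : ∀ x ∈ Aw X (Wdg a b 0), x ∈ Ca c.Q (Wdg b a 0) :=
  fun x hx => have ⟨M, m1, m2⟩ := r.nm a b ha hb hab
  m2 x (M.commutant_commutant ▸ VonNeumannAlgebra.mem_commutant_iff.2 fun Y hY =>
    ((StarSubalgebra.mem_centralizer_iff ℂ).1 hx Y (m1 Y hY)).1)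

theorem Rl.slf {ι : Type*} {X : ι → Fld D} (r : Rl c X) {c' : Cf D}
    (e : c'.Om = c.Om) : SLf c' X := by
  refine ⟨fun a b ha hb hab => ?_, fun a b ha hb hab x hx => r.ca b a x (r.wk ha hb hab x hx)⟩
  obtain ⟨M, m1, m2⟩ := r.nm a b ha hb hab
  refine (rs_gen (Q := c.Q) (N := M.commutant) (open_Wdg b a 0) (EG.SGx.wne ha hb hab)
    fun B f q hf => ?_).mono ?_
  · obtain ⟨B', -, p⟩ := c.Q.adj B q
    exact ⟨_, fun v w => p f v w hf.1, fun Y hY =>
      m2 Y (by rwa [VonNeumannAlgebra.commutant_commutant] at hY) B B' f q p hf⟩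
  · rintro _ ⟨Y, hY, k⟩
    exact ⟨Y, m1 Y hY, e ▸ k⟩

theorem aw_thm {ι : Type*} {X : ι → Fld D} (w : WC0 c X) (r : Rl c X) : AW c (Aw X) := by
  have k := r.wk Grp.na Grp.nb Grp.nab
  refine ⟨fun O O' e x hx => (mem_aw w).2 fun y hy => (mem_aw w).1 hx y (w.anti _ _ e y hy),
    fun g O x hx => (mem_aw w).2 fun y hy => ?_, fun O x hx => (mem_aw w).1 hx _ (w.gam O), k,
    fun x hx y hy => (mem_aw w).1 hy x (r.ca _ _ x (k x hx))⟩
  have h := (mem_aw w).1 hx _ (w.anti _ _ (Set.subset_preimage_image _ _) _ (w.cov g _ y hy))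
  have u := (SGx.uni g).2
  calc _ = g.U c * (star (g.U c) * y * g.U c * x) * star (g.U c) := by
        simp only [← mul_assoc, u, one_mul]
    _ = _ := by rw [h]; simp only [mul_assoc, u, mul_one]

theorem dv_dil {s : ℝ} (hs : 0 < s) (m : Ix) (v : D) :
    Dv c.Q m (u c.Q s hs v) = ((s⁻¹ : ℝ) : ℂ) • u c.Q s hs (Dv c.Q m v) := by
  have R := Fsg.m1 c
  have h0 := (wb_row c).der m v
  rw [← mul_zero s⁻¹] at h0
  have h1 := hasDerivAt_iso (U_add hs H496.isLor_one 0) (U_smul hs H496.isLor_one 0)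
    (fun v => H246.U_nrm0 (Q := c.Q) hs H496.isLor_one 0 v)
    (h0.scomp (0 : ℝ) (hasDerivAt_const_mul (x := (0 : ℝ)) s⁻¹))
  rw [← map_smul, Complex.coe_smul]
  refine ((wb_row c).der m _).unique (h1.congr_of_eventuallyEq (.of_forall fun t => ?_))
  refine (R _ _ _ _ _ _ v one_pos hs H496.isLor_one H496.isLor_one (.inl rfl)).trans
    (Eq.trans ?_ (R _ _ _ _ _ _ v hs one_pos H496.isLor_one H496.isLor_one (.inl rfl)).symm)
  rw [one_mul, mul_one, sim_dil, sim_dil, smul_zero, add_zero, zero_add]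
  congr 1
  funext n
  simp only [bas, Pi.smul_apply, smul_eq_mul, mul_ite, mul_zero, mul_inv_cancel_left₀ hs.ne']

theorem en_smul (z : ℂ) (k : ℕ) : ∀ v, en c.Q k (z • v) = ‖z‖ * en c.Q k v := by
  induction k with
  | zero => exact norm_smul z
  | succ k ih => exact fun v => by simp only [en, (wb_row c).smul, ih, mul_add, Finset.mul_sum]

theorem en_dil {s : ℝ} (hs : 0 < s) (k : ℕ) : ∀ v,
    en c.Q k (u c.Q s hs v) ≤ (1 + s⁻¹) ^ k * en c.Q k v := by
  have p := inv_pos.2 hs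
  induction k with
  | zero => exact fun v => (H246.U_nrm0 hs H496.isLor_one 0 v).trans_le (by simp [en])
  | succ k ih =>
    intro v
    simp only [en, dv_dil, en_smul, mul_add, Finset.mul_sum, Complex.norm_real,
      Real.norm_of_nonneg p.le]
    refine add_le_add ((ih v).trans ?_) (Finset.sum_le_sum fun m _ =>
      (mul_le_mul_of_nonneg_left (ih _) p.le).trans ?_)
    · exact mul_le_mul_of_nonneg_right (pow_le_pow_right₀ (by linarith) k.le_succ) (Gd.en_nn _ _)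
    · rw [← mul_assoc, pow_succ']
      exact mul_le_mul_of_nonneg_right (mul_le_mul_of_nonneg_right (by linarith) (by positivity))
        (Gd.en_nn _ _)

theorem eb_tt {F : Ix → Ix → Finset (ℂ × ℕ)} {C : Ix → Ix → ℂ × ℕ → Fld D}
    (hC : ∀ m n, Scl c.Q (T m n) (F m n) (C m n)) (hE : ∀ m n, EB1 c.Q (T m n)) (p : ℝ × Ix × Ix) :
    EB1 c.Q (un (fun τ m n => StA.TT (F m n) (C m n) τ) p) := by
  obtain ⟨τ, m, n⟩ := p
  obtain ⟨M, S, e, -, hc⟩ := ex_sel F
  obtain ⟨k, hk⟩ := hE m n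
  refine ⟨k, fun f hf => ?_⟩
  choose K hK using fun t => hk (ds (Real.exp (τ + t)) f)
    (Ap.in_sim (Real.exp_pos _) H496.isLor_one 0 hf)
  refine ⟨∑ t ∈ S, ‖e t‖ * (|K t| * (1 + (Real.exp (τ + t))⁻¹⁻¹) ^ k), fun v => ?_⟩
  rw [un, tt_fm (hC m n) (Fsg.m1 c) (hc m n).1 τ hf.1, Finset.sum_mul]
  refine (norm_sum_le _ _).trans (Finset.sum_le_sum fun t _ => ?_)
  rw [norm_smul, mul_assoc, mul_assoc]
  refine mul_le_mul_of_nonneg_left (((H246.U_nrm0 (Real.exp_pos _) H496.isLor_one 0 _).trans_le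
    (hK t _)).trans ?_) (norm_nonneg _)
  exact mul_le_mul (le_abs_self _) (en_dil _ k v) (Gd.en_nn _ _) (abs_nonneg _)

theorem hf_of (hF : Fam c.Q TT n0) : HF c (un TT) where
  bose p := (hF.st _).bose _ _
  herm p := (hF.st _).herm _ _
  cov p s L a hs hL := ⟨fun q => L q.1 p.2.1 * L q.2 p.2.2, fun q => (p.1 - Real.log s, q),
    fun f v hf => by
      have := hF.cov (p.1 - Real.log s) p.2.1 p.2.2 s L a f v hs hL hf
      rw [sub_add_cancel] at this
      rw [Fintype.sum_prod_type]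
      simpa only [Complex.ofReal_mul] using this⟩

section sec

variable {E : Submodule ℂ D} {q : Theory E} {t : ℝ × Ix × Ix → Fld E} {a : (V → V) → E → E}
  {j : Completion E →L[ℂ] Completion D} (s : Sec c (un TT) E q t a j) (hF : Fam c.Q TT n0)
include s hF

theorem sec_cov (τ : ℝ) (m n : Ix) {r : ℝ} {L : Ix → V} (y : V) {f : Fn} (v : E) (hr : 0 < r)
    (hL : IsLor L) (hf : IsTest f) : t (τ + Real.log r, m, n) f (q.U r L y v) =
      ∑ k, ∑ l, (L k m * L l n : ℂ) • q.U r L y (t (τ, k, l) (fun x => f (sim r L y x)) v) := by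
  refine Subtype.ext ?_
  simp only [Submodule.coe_sum, Submodule.coe_smul, s.eq _ _ _ hf, s.qU _ _ _ _ hr hL,
    s.eq _ _ _ (Ap.test_sim hr hL y hf)]
  exact hF.cov τ m n r L y f v hr hL hf

theorem sec_fam : Fam q (fun τ m n => t (τ, m, n)) n0 := by
  have fl := (hf_of hF).fld
  refine ⟨fun τ => ⟨fun m n => s.bose _, fun m n f v hf => Subtype.ext ?_, fun m n f v w hf => ?_,
    fun m n L y f v hL hf => ?_, fun n f v hf => Subtype.ext ?_, ?_⟩,
    fun τ m n r L y f v hr hL hf => sec_cov s hF τ m n y v hr hL hf,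
    fun m n f v hf => .of_lag (a := fun i => t (i, m, n) f v) fun τ => Subtype.ext ?_⟩
  · rw [s.eq _ _ _ hf, s.eq _ _ _ hf]
    exact (hF.st τ).symm m n f v hf
  · rw [Submodule.coe_inner, Submodule.coe_inner, s.eq _ _ _ hf, s.eq _ _ _ (isTest_bar hf)]
    exact (hF.st τ).herm m n f v w hf
  · simpa only [Real.log_one, add_zero] using sec_cov s hF τ m n y v one_pos hL hf
  · simp only [Submodule.coe_sum, fun m => s.eq (τ, m, n) _ v (Ap.test_pd m hf)]
    exact (hF.st τ).conserved n f v hf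
  · intro F n B f v w h0 hB hf hc
    obtain ⟨i, rfl⟩ := s.fld B hB
    have h1 := (hF.st τ).charge F n _ f v w h0 (fl i) hf hc
    rw [Submodule.coe_inner, Submodule.coe_smul, s.eq _ _ _ (Ap.test_pd n hf)]
    refine h1.congr' ((isTest_cutoff h0).mono fun R hR => ?_)
    simp only [Submodule.coe_inner, Submodule.coe_sub, s.eq _ _ _ hf, s.eq _ _ _ hR]
  · simp only [← Complex.coe_smul, Submodule.coe_sum, Submodule.coe_smul, s.eq _ _ _ hf]
    simpa only [← Complex.coe_smul] using (hF.pol m n f v hf).lag_eq τ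

theorem sec_pch (rp : Rep q a) {τ : ℝ} (hP : ND.PCh c.Q (TT τ) c.A) : ND.PCh q (fun m n => t (τ, m, n)) a := by
  intro F X B f v w h0 hX hB hf hc
  obtain ⟨i, rfl⟩ := s.fld B hB
  have h1 := hP F X _ f v w h0 hX ((hf_of hF).fld i) hf hc
  rw [Submodule.coe_inner, Submodule.coe_sub, s.qA rp _ _ hX, s.eq _ _ _ hf, s.eq _ _ _ hf,
    s.qA rp _ _ hX]
  refine h1.congr' ((isTest_cutoff h0).mono fun R hR => ?_)
  simp only [Submodule.coe_inner, Submodule.coe_sub, s.eq _ _ _ hf, ND.cur, Submodule.coe_sum,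
    fun n z => s.eq (τ, o, n) _ z (EG.Sct.test_cur hX n hR)]

theorem sec_tfg : TfGen q := fun S h0 h1 => s.cyc S h0 fun p f v hf hv =>
  h1 2 (fun μ => t (p.1, μ 0, μ 1)) ![p.2.1, p.2.2] f v
    ⟨fun μ => q.bose_fld _ (s.bose _), fun μ L f v hL hf => by
      beta_reduce
      rw [((sec_fam s hF).st p.1).cov _ _ L 0 f v hL hf, ← Fintype.sum_prod_type']
      refine (Fintype.sum_equiv (finTwoArrowEquiv Ix) _ _ fun ν => ?_).symm
      simp [Fin.prod_univ_two]⟩ hf hv

end sec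

/-- a generator that commutes with the fields vanishes -/
theorem gen_zero {X : V → V} (hX : IsSim 0 X)
    (h : ∀ B f v, c.Q.fld B → In Set.univ f → c.A X (B f v) = B f (c.A X v)) (v : D) :
    c.A X v = 0 := by
  have l : IsLinearMap ℂ (c.A X) := (Fsg.gen c hX).isLinear
  obtain ⟨y, w', hw, hX⟩ := hX
  obtain ⟨s, L, a, K, k1⟩ := ex_crv1 hw y
  have d := Fsg.der (c := c) K k1 hX
  have sy : ∀ v w, inner ℂ (c.A X v) w = inner ℂ v (c.A X w) := fun v w => by
    have h1 := (d v).inner ℂ (d w)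
    simp only [fun e => c.Q.U_inner _ _ (a e) v w (K.sp e) (K.lor e)] at h1
    have h3 := h1.unique (hasDerivAt_const _ _)
    rw [H746.U_at0 K, H746.U_at0 K, inner_smul_right, inner_smul_left, Complex.conj_I] at h3
    refine mul_left_cancel₀ Complex.I_ne_zero ?_
    linear_combination -h3
  have v0 : c.A X c.Q.vac = 0 := by
    have h1 := d c.Q.vac
    simp only [fun e => c.Q.U_vac _ _ (a e) (K.sp e) (K.lor e)] at h1
    exact (smul_eq_zero.1 (h1.unique (hasDerivAt_const _ _))).resolve_left Complex.I_ne_zero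
  refine (dense_gen_univ c.Q).eq_zero_of_inner_right ℂ ?_
  rintro _ ⟨Y, Y', hY, rfl⟩
  rw [← sy, show c.A X (Y c.Q.vac) = 0 from ?_, inner_zero_left]
  induction hY with
  | one => exact v0
  | add _ _ _ _ _ _ h1 h2 => rw [l.map_add, h1, h2, add_zero]
  | smul _ _ _ _ h1 => rw [l.map_smul, h1, smul_zero]
  | fld B _ g _ _ hB _ _ hg _ h1 => rw [h _ _ _ hB hg, h1]; exact (Fss.fl hB hg.1).map_zero

/-- the linear hull -/
def Cf.hl (c : Cf D) : Cf D :=
  ⟨hull c.Q, c.G, c.A, c.Γ, P352L.Gd.gr_hull c.hN.toGr, c.hN.vac, c.hN.add, c.hN.der, c.hN.ext⟩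

theorem fam_of (hT : c.Q.IsStress T) : Fam c.Q (fun _ => T) 0 :=
  ⟨fun _ => ⟨hT.bose, hT.symm, hT.herm, fun m n L a f v => hT.cov m n 1 L a f v one_pos,
    hT.conserved, hT.charge⟩, fun _ => hT.cov,
    fun m n f v _ => IsPol.of_poly {()} (fun _ => 1) (fun _ => T m n f v) (by simp) (by simp)⟩

section sec1

variable {E : Submodule ℂ D} {q : Theory E} {τ : ℝ × Ix × Ix → Fld E} {a : (V → V) → E → E}
  {j : Completion E →L[ℂ] Completion D} (h : Sec c (un fun _ => T) E q τ a j)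
include h

theorem sec_st (hT : c.Q.IsStress T) : q.IsStress fun m n => τ (0, m, n) :=
  have s0 := (sec_fam h (fam_of hT)).st 0
  ⟨s0.bose, s0.symm, s0.herm, fun m n s L y f v hs hL hf => by
    refine Eq.trans (Subtype.ext ?_) (sec_cov h (fam_of hT) 0 m n y v hs hL hf)
    rw [h.eq _ _ _ hf, h.eq _ _ _ hf], s0.conserved, s0.charge⟩

theorem sec_in (z w : Completion E) : inner ℂ (j z) (j w) = inner ℂ z w := by
  rw [← ContinuousLinearMap.adjoint_inner_right, h.iso]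

theorem sec_om : j (om q) = c.Om := (h.coe _).trans (congrArg _ h.vac)

theorem sec_T (m n : Ix) {f : Fn} (hf : IsTest f) : ((T m n f c.Q.vac : D) : Completion D) =
    j (τ (0, m, n) f q.vac : E) := by rw [h.coe, h.eq _ _ _ hf, h.vac]

theorem sec_pot {l : Fn → Completion E} (hl : IsPot q (fun m n => τ (0, m, n)) l)
    (r : Rep q a) : IsPot c.Q T fun f => j (l f) := by
  refine ⟨fun f g z hf hg => ?_, j.continuous.comp hl.cont, fun f hf => ?_,
    fun s L y f v hs hL hf => ?_⟩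
  · simp only [hl.lin f g z hf hg, map_add, map_smul]
  · rw [← map_smul, hl.trace f hf]
    simp only [GF.tr, Fin'.coe_sum, Completion.coe_smul, map_sum, map_smul, sec_T h _ _ hf]
  · have e : ∀ z, inner ℂ (Ug q s L y z) (l f) =
        (s ^ 2 : ℝ) * inner ℂ z (l fun x => f (sim s L y x)) := fun z =>
      Completion.induction_on z (isClosed_eq (by fun_prop) (by fun_prop)) fun u => by
        rw [Grp.coe hs hL, hl.cov s L y f u hs hL hf]
    have u : ∀ z, Ug q s L y (star (Ug q s L y) z) = z := fun z =>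
      DFunLike.congr_fun (Grp.uni r s L y).2 z
    rw [← ContinuousLinearMap.adjoint_inner_left, ← u (adjoint j _), e,
      ← Grp.ug_inner hs hL y (star (Ug q s L y) _), u, ContinuousLinearMap.adjoint_inner_left,
      h.U _ _ _ _ hs hL, ← Grp.coe hs hL, Grp.ug_inner hs hL]

end sec1

end

end Vale.Agent.N352.EP
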