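import Vale.Agent.N352.Main
import Vale.Agent.N352.EP.Cf

/-!
# N352/E: strong locality of one hermitian Bose field
-/

set_option linter.all false

noncomputable section

namespace Vale.Agent.N352.EP.Sl

open P352 GF P352R P352R.P P352R.G P352W.Net P352X.EG.Wb Le L22
open UniformSpace (Completion)
open scoped InnerProductSpace

variable {D : Type*} [NormedAddCommGroup D] [InnerProductSpace ℂ D] {Q : Theory D} {G : D → D}
  {A : (V → V) → D → D} {t : Fld D} {f : Fn} {S : Set V}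

/-- linear energy bounds for one field -/
def LB (Q : Theory D) (t : Fld D) : Prop :=
  ∀ f, In Set.univ f → ∃ C : ℝ, ∀ v, ‖t f v‖ ≤ C * (‖v‖ + ‖Dv Q o v‖)

theorem bk1 (r : Dr Q) (l : LB Q t) (hf : In Set.univ f) : Bk (dL r) 1 (t f) := by
  obtain ⟨c, h⟩ := l f hf
  refine ⟨|c| * 3, by positivity, fun v => ?_⟩
  have n1 := (Tg.gnr r).le v
  have n2 : ‖dL r v‖ ≤ ‖v‖ + ‖v - dL r v‖ := by simpa using norm_sub_le v (v - dL r v)
  refine (h v).trans ((mul_le_mul_of_nonneg_right (le_abs_self c) (by positivity)).trans ?_)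
  rw [mul_assoc, pow_one]
  exact mul_le_mul_of_nonneg_left (by change _ + ‖dL r v‖ ≤ 3 * ‖v - dL r v‖; linarith)
    (abs_nonneg c)

theorem gd (r : Dr Q) (l : LB Q t) (ht : Q.fld t) (ad : IsAdj t t) (hf : In Set.univ f) :
    Gd (dL r) (lin (t f) _ fun v w => ad f v w hf.1) := by
  have u (n : ℕ) : In Set.univ ((pd o)^[n] f) := by
    induction n with
    | zero => exact hf
    | succ n ih => rw [Function.iterate_succ_apply']; exact P352X.Ap.in_pd o ih
  refine ⟨fun n => ((-1 : ℂ) ^ n) • lin (t ((pd o)^[n] f)) _ fun v w => ad _ v w (u n).1, ?_,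
    fun n => ⟨(bk1 r l (u n)).smul _, fun v => ?_⟩⟩
  · exact LinearMap.ext fun v => one_smul _ _
  · show dL r ((-1 : ℂ) ^ n • t _ v) =
      (-1 : ℂ) ^ n • t _ (H246.Dv Q o v) + (-1 : ℂ) ^ (n + 1) • t _ v
    rw [map_smul, Function.iterate_succ_apply', show dL r (t _ v) = _ from Dv_fld r o ht (u n).1 v,
      pow_succ, smul_add, mul_neg_one, neg_smul, smul_neg, add_comm]

theorem bk (r : Dr Q) (e : EBd Q) {B g} (hB : Q.fld B) (hg : In Set.univ g) :
    ∃ k, Bk (dL r) k (B g) := by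
  obtain ⟨k, c⟩ := e B hB
  obtain ⟨C, c⟩ := c g hg
  obtain ⟨C', p, q⟩ := Tw.en_le r k
  refine ⟨k, |C| * C', by positivity, fun v => (c v).trans ?_⟩
  rw [mul_assoc]
  exact (mul_le_mul_of_nonneg_right (le_abs_self C) (Br.en_eq Q k v ▸ H246.en_nonneg k v)).trans
    (mul_le_mul_of_nonneg_left (q v) (abs_nonneg C))

/-- **a linear energy bound for `t` and polynomial energy bounds give strong locality** -/
theorem of_leb (r : Dr Q) (e : EBd Q) (ht : Q.bose t) (ad : IsAdj t t) (l : LB Q t)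
    (hf : In Set.univ f) (re : bar f = f) : ∃ M : VonNeumannAlgebra (Completion D),
      Aff M (t f) ∧ ∀ B g, Q.fld B → In Set.univ g → Sep f g → Aff M.commutant (B g) := by
  let X : Module.End ℂ D := lin (t f) _ fun v w => ad f v w hf.1
  have sy : Sy X := fun v w => (ad f v w hf.1).trans (by rw [re]; rfl)
  have g : Gd (dL r) X := gd r l (Q.bose_fld _ ht) ad hf
  have s : ∀ Z, Z = X → Sy Z := fun _ h => h ▸ sy
  refine ⟨vn (RR (· = X)), ⟨t f, sy, fun Y hY => ?_⟩, fun B g' hB hg sp => ?_⟩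
  · obtain ⟨n, T, k, -⟩ := ex_res (Tg.gnr r) sy g 0
    rw [vn_comm, mem_cmt (rr_star s)] at hY
    exact k.wk sy (hY T ⟨X, n, rfl, k⟩)
  · obtain ⟨B', -, a⟩ := fad hB
    obtain ⟨k, b⟩ := bk r e hB hg
    refine ⟨_, a g' hg.1, fun Y hY => ?_⟩
    rw [VonNeumannAlgebra.commutant_commutant] at hY
    exact L22.aff (S := (· = X)) (C := (a g' hg.1).L) (Tg.gnr r) (fun _ h => h ▸ ⟨sy, g⟩) b (a g' hg.1)
      (fun _ h v => h ▸ Q.loc t B f g' v ht hB hf.1 hg.1 sp) hY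

/-- **a graded local net gives strong locality**: the even part of the wedge algebra -/
theorem net1 {Γ N} (h : LN0 Q G Γ N) {a b : V} (ha : IsNull a) (hb : IsNull b)
    (ab : mdot a b = 1) : ∃ M : VonNeumannAlgebra (Completion D),
      (∀ Y, Y ∈ M ↔ Y ∈ N (Wdg b a 0) ∧ Γ * Y = Y * Γ) ∧
      (∀ t f, Q.bose t → In (Wdg b a 0) f → Aff M (t f)) ∧
        ∀ B g, Q.fld B → In (Wdg a b 0) g → Aff M.commutant (B g) := by
  have g2 := Lg.g2 (Br.gr.2 h.toGr) h.ext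
  have gs := Tg.gs (Br.gr.2 h.toGr) h.ext
  let K : Set (Completion D →L[ℂ] Completion D) :=
    {Z | ∃ Y ∈ (N (Wdg b a 0)).commutant, Z = Y ∨ Z = Y * Γ}
  have gc : ∀ Y ∈ (N (Wdg b a 0)).commutant, Γ * Y * Γ ∈ (N (Wdg b a 0)).commutant := fun Y y =>
    VonNeumannAlgebra.mem_commutant_iff.2 fun X x => by
      have := VonNeumannAlgebra.mem_commutant_iff.1 y _ (h.gam _ X x)
      calc X * (Γ * Y * Γ) = Γ * (Γ * X * Γ * Y) * Γ := by simp only [mul_assoc, Tg.gg g2]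
        _ = _ := by rw [this]; simp only [mul_assoc, g2, mul_one]
  have st : ∀ Z ∈ K, star Z ∈ K := by
    rintro _ ⟨Y, y, rfl | rfl⟩
    · exact ⟨_, star_mem y, .inl rfl⟩
    · exact ⟨_, gc _ (star_mem y), .inr (by rw [star_mul, gs, mul_assoc, g2, mul_one])⟩
  have mm : ∀ Y, Y ∈ cmt K ↔ Y ∈ N (Wdg b a 0) ∧ Γ * Y = Y * Γ := fun Y => by
    rw [mem_cmt st, ← VonNeumannAlgebra.commutant_commutant (N _),
      VonNeumannAlgebra.mem_commutant_iff]
    refine ⟨fun hY => ⟨fun Z z => hY Z ⟨Z, z, .inl rfl⟩,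
      by simpa using hY _ ⟨1, one_mem _, .inr rfl⟩⟩, fun hY => ?_⟩
    rintro _ ⟨Z, z, rfl | rfl⟩
    · exact hY.1 _ z
    · rw [mul_assoc, hY.2, ← mul_assoc, hY.1 _ z, mul_assoc]
  refine ⟨cmt K, mm, fun t f ht hf => ?_, fun B g hB hg => ?_⟩
  · obtain ⟨P, ad, k⟩ := h.fld _ t f (Q.bose_fld _ ht) hf
    refine ⟨P, ad, fun Y hY v w => bic2 K ⟨1, one_mem _, .inl rfl⟩ ?_ st
      (fun Z z => VonNeumannAlgebra.mem_commutant_iff.1 hY Z ((mem_cmt st).2 z)) ?_⟩
    · rintro _ ⟨Y, y, rfl | rfl⟩ _ ⟨Z, z, rfl | rfl⟩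
      · exact ⟨_, mul_mem y z, .inl rfl⟩
      · exact ⟨_, mul_mem y z, .inr (mul_assoc _ _ _).symm⟩
      · exact ⟨_, mul_mem y (gc _ z), .inr (by simp only [mul_assoc, g2, mul_one])⟩
      · exact ⟨_, mul_mem y (gc _ z), .inl (by simp only [mul_assoc])⟩
    · rintro _ ⟨Y, y, rfl | rfl⟩
      · exact k _ y v w
      · rw [ContinuousLinearMap.mul_apply, ContinuousLinearMap.mul_apply, h.ext, h.ext, k _ y,
          h.bose t f v ht hf.1]
  · obtain ⟨P, ad, k⟩ := h.fld _ B g hB hg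
    refine ⟨P, ad, fun Y hY => k Y ?_⟩
    rw [VonNeumannAlgebra.commutant_commutant, mm] at hY
    have := (h.loc a b Y ha hb ab hY.1).1
    rw [hY.2, mul_assoc, g2, mul_one] at this
    exact Tg.half g2 this

theorem of_net {Γ N} (h : LN0 Q G Γ N) (ht : Q.bose t) {a b : V} (ha : IsNull a) (hb : IsNull b)
    (ab : mdot a b = 1) (hf : In (Wdg b a 0) f) : ∃ M : VonNeumannAlgebra (Completion D),
      Aff M (t f) ∧ ∀ B g, Q.fld B → In (Wdg a b 0) g → Aff M.commutant (B g) :=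
  (net1 h ha hb ab).imp fun _ k => ⟨k.2.1 t f ht hf, k.2.2⟩

end Vale.Agent.N352.EP.Sl
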