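import Vale.Agent.N352.K.Top4
import Vale.Agent.N352.T.Top
import Vale.Agent.N352.EP.Wd

/-!
# N352, block EP: the extension under energy bounds, with further properties
-/

set_option linter.all false

open Filter Topology
open scoped ComplexConjugate

namespace Vale.Agent.N352.EP

open Vale.Agent.P352 Vale.Agent.P352.GF Vale.Agent.P352.BW Vale.Agent.P352.H246
open Vale.Agent.P352.H496 Vale.Agent.P352.H755 Vale.Agent.P352.H15
open Vale.Agent.P352.SubConf (IsAdj)
open Vale.Agent.P352X Vale.Agent.P352X.EB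
open G.X (Cl Law)
open UniformSpace (Completion)

noncomputable section

variable {D : Type*} [NormedAddCommGroup D] [InnerProductSpace ℂ D] {c : Ctx D}

variable (c) in
/-- the extension with the local potential -/
structure FINp {D' : Submodule ℂ (Completion D)} (Q' : Theory D') (G' : D' → D')
    (e : Fld D → Fld D') (L : Fld D') : Prop where
  ext : ExtC c.Q c.Γ Q' G' e
  str : Q'.IsStress fun m n => e (c.T m n)
  sca : Q'.IsScalar L 2
  tr : ∀ f v, IsTest f → GF.tr (fun m n => e (c.T m n)) f v = (3 : ℂ) • L (box f) v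
  pot : ∀ f, IsTest f → (L f Q'.vac : Completion D) = c.l f
  gen : ∀ A, Q'.fld A → ∃ (n : ℕ) (B : Fin n → Fld D'), (∀ i, B i = L ∨ ∃ C, c.Q.fld C ∧
    ∀ f v, IsTest f → B i f v = e C f v) ∧ ∀ f v, A f v = ∑ i, B i f v

/-- the domain is generated by the fields -/
theorem cyc_row {Λ : Type*} {x : Lt c Λ} (w : WP x) (F : FS x) {Q : Theory x.Dn}
    (b1 : (Q.vac : Completion D) = c.Om) (b3 : ∀ B, Q.fld B ↔ x.Fs (fun _ => True) B)
    (v : x.Dn) : Cyc Q v := fun S a b => by
  have k : ∀ (u : Wd Λ) (v : x.Dn), TW u → (v : Completion D) = x.W u → v ∈ S := fun u => by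
    induction u with
    | nil => exact fun v _ e => (Subtype.ext (e.trans (w.nil.trans b1.symm)) : v = Q.vac) ▸ a
    | cons p u ih =>
      intro v h e
      obtain ⟨h1, h2⟩ := Cq.tw_cons.1 h
      rw [show v = x.o p.1 p.2 ⟨_, Fq.W_mem h2⟩ from
        Subtype.ext (e.trans (F.oW _ _ u _ h1 h2 rfl).symm)]
      exact b _ _ _ ((b3 _).2 (Rq.fs_one trivial)) h1 (ih _ h2 rfl)
  induction v using Fq.ind with
  | h0 => exact S.zero_mem
  | h1 v v' p q => exact S.add_mem p q
  | h2 z v p => exact S.smul_mem z p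
  | h3 u hu => exact k u _ hu rfl

theorem cl_row {Λ : Type*} {x : Lt c Λ} {Q : Theory x.Dn}
    (b3 : ∀ B, Q.fld B ↔ x.Fs (fun _ => True) B) : Cl Q := by
  refine ⟨(b3 _).2 ⟨0, Fin.elim0, fun _ => trivial, rfl⟩, fun A B a b => ?_⟩
  obtain ⟨n, p, -, rfl⟩ := (b3 A).1 a
  obtain ⟨m, q, -, rfl⟩ := (b3 B).1 b
  refine (b3 _).2 ⟨n + m, Fin.append p q, fun _ => trivial, funext₂ fun f v => ?_⟩
  simp only [Fin.sum_univ_add, Fin.append_left, Fin.append_right, Pi.add_apply]

open Fin' in
theorem fin_p (t : E0 c.toCf) (hc : COV c.toCf) (h0 : COV0 c.toCf) (o : OPS (lx hc))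
    (tm : TMP (lx hc)) :
    ∃ D' Q' G' e L, FINp c (D' := D') Q' G' e L ∧ (∀ v, Cyc Q' v) ∧ Cl Q' := by
  set x := lx hc with hx
  have t1 : E1 x := ⟨t, o⟩
  have E := ext_row t1 tm
  have w := wp_row t1 E
  have F := fs_row w
  have V' := cv_row t1 E w F
  have r := rec_row t F V'
  have h2 : ∀ p : Lb c.toCf, x.Is (some p) p.B p.B' := fun p =>
    ⟨p.h, p.h', p.a, fun _ _ => ⟨rfl, rfl⟩⟩
  have gd := Rq.gd t.sg V'
  have adj : ∀ B B' f (v : x.Dn) (u : D), c.Q.fld B → IsAdj B B' → IsTest f → Cyc c.Q u →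
      inner ℂ (ee x B f v : Completion D) (u : Completion D) =
        inner ℂ (v : Completion D) (B' (bar f) u : Completion D) := by
    intro B B' f v u hB hA hf hu
    have e : B' (bar f) u = ∑ i, ((dec c.toCf B).2 i).B' (bar f) u :=
      ext_inner_left ℂ fun y => by
        rw [← hA f y u hf, dec_spec hB f y hf, sum_inner, inner_sum]
        exact Finset.sum_congr rfl fun i _ => ((dec c.toCf B).2 i).a f y u hf
    rw [e, coe_sum, inner_sum, ee, Submodule.coe_sum, sum_inner]
    exact Finset.sum_congr rfl fun i _ => F.aff _ _ _ f v u (h2 _) hf hu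
  have eq : ∀ (p : Lb c.toCf) f v, IsTest f → x.o (some p) f v = ee x p.B f v := fun p f v hf =>
    ext_C c.Q fun y hy => by rw [F.aff _ _ _ f v y (h2 p) hf hy, adj _ _ f v y p.h p.a hf hy]
  have agree : ∀ B f (v : x.Dn) (u : D), c.Q.fld B → IsTest f → Cyc c.Q u →
      (v : Completion D) = u → (ee x B f v : Completion D) = (B f u : D) := by
    intro B f v u hB hf hu e
    obtain ⟨B', -, hA⟩ := c.Q.adj B hB
    refine (cs_dense c.Q).eq_of_inner_left ℂ fun y => ?_
    rw [adj B B' f v y hB hA hf y.2, e, Completion.inner_coe, Completion.inner_coe, hA f u y hf]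
  have cyc : ∀ S : Submodule ℂ x.Dn, (∀ v : x.Dn, (v : Completion D) = c.Om → v ∈ S) →
      (∀ p f v, IsTest f → v ∈ S → x.o (some p) f v ∈ S) → ∀ u, Cyc c.Q u →
      ∃ v ∈ S, (v : Completion D) = u := fun S a1 a2 u hu =>
    (hu (cs c.Q ⊓ (S.map x.Dn.subtype).comap
      (Completion.toComplL : D →L[ℂ] Completion D).toLinearMap)
      ⟨cyc_vac, ⟨c.Om, F.vac⟩, a1 _ rfl, rfl⟩ (by
        rintro B f u hB hf ⟨h, v, hv, e⟩
        exact ⟨cyc_fld hB hf h, ee x B f v, S.sum_mem fun i _ => a2 _ f v hf hv,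
          agree B f v u hB hf h e⟩)).2
  have cyc' : ∀ P : Lab c → Prop, (∀ p, P (some p)) → ∀ S : Submodule ℂ x.Dn,
      (∀ v : x.Dn, (v : Completion D) = c.Om → v ∈ S) →
      (∀ a f v, P a → IsTest f → v ∈ S → x.o a f v ∈ S) → Dense (S : Set x.Dn) :=
    fun P hP S a1 a2 v => by
      rw [closure_subtype]
      refine closure_mono ?_ (cs_dense c.Q v)
      rintro _ ⟨u, rfl⟩
      exact cyc S a1 (fun p f v hf hv => a2 _ f v (hP p) hf hv) u u.2
  have ud := fun s L a v hs hL => Rq.ud V' (s := s) (L := L) hs hL a v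
  have ex : ∀ (P : Lab c → Prop) (Q' : Theory x.Dn), (∀ p, P (some p)) →
      (Q'.vac : Completion D) = c.Om → Q'.U = x.Ud → (∀ B, Q'.fld B ↔ x.Fs P B) →
      (∀ B, Q'.bose B ↔ x.Fs P B ∧ ∀ f v, IsTest f → B f (x.Gd v) = x.Gd (B f v)) →
      Gr Q' x.Gd → ExtC c.Q c.Γ Q' x.Gd (ee x) := fun P Q' hP a1 a2 a3 a4 a5 =>
    ⟨a5, fun u hu => let ⟨v, _, e⟩ := cyc ⊤ (fun _ _ => trivial) (fun _ _ _ _ _ => trivial) u hu
      e ▸ v.2, a1, gd, fun s L a v hs hL => by rw [a2, ud s L a v hs hL, Ug_apply _ hs hL],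
      fun B _ => (a3 _).2 ⟨_, _, fun i => hP _, rfl⟩, fun B hB => (a4 _).2
        ⟨⟨_, _, fun i => hP _, rfl⟩, fun f v hf => ext_C c.Q fun y hy => by
          have hB1 := c.Q.bose_fld _ hB
          obtain ⟨B', -, hA⟩ := c.Q.adj B hB1
          have pa := t.bas.padj false B B' hA (fun f v hf =>
            (c.hN.bose B f v hB hf).trans (one_smul _ _).symm) _ y (Ap.test_bar hf)
          rw [sg_false, one_smul] at pa
          rw [adj B B' f _ y hB1 hA hf hy, gd, gd, ← t.sg.gs, star_inner, star_inner,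
            c.hN.ext, c.hN.ext, adj B B' f _ _ hB1 hA hf (cyc_G (c := c.toCf) hy), pa]⟩,
      fun B B' a b d f v u hf => by
        have e : ee x B' (bar f) u = ∑ i, x.o (x.dag (some ((dec c.toCf B).2 i))) (bar f) u :=
          ext_C c.Q fun y hy => by
            have hb := Ap.test_bar hf
            rw [adj B' B _ u y b (H755.adj_symm d) hb hy, dec_spec a _ y (Ap.test_bar hb), coe_sum,
              inner_sum, Submodule.coe_sum, sum_inner]
            exact Finset.sum_congr rfl fun i _ =>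
              (F.aff _ _ _ _ u y (h2 ((dec c.toCf B).2 i).dag) hb hy).symm
        rw [e, ee, sum_inner, inner_sum]
        exact Finset.sum_congr rfl fun i _ => F.herm _ f v u hf, agree⟩
  obtain ⟨Q0, a1, a2, a3, a4, a5⟩ := r (· ≠ none) (fun a ha => by
    cases a with
    | none => exact absurd rfl ha
    | some p => exact Option.some_ne_none _) (cyc' _ fun p => Option.some_ne_none p)
  obtain ⟨Q1, b1, b2, b3, b4, b5⟩ := r (fun _ => True) (fun _ _ => trivial) (cyc' _ fun _ => trivial)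
  have s0 := str0 (c := c.toCf) c.hT h0 (ex _ Q0 (fun p => Option.some_ne_none p) a1 a2 a3 a4 a5)
    fun A hA => by
      obtain ⟨n, b, hb, rfl⟩ := (a3 A).1 hA
      choose p hp using fun i => Option.ne_none_iff_exists'.1 (hb i)
      exact ⟨n, fun i => (p i).B, fun i => (p i).h, fun f v hf =>
        Finset.sum_congr rfl fun i _ => by rw [hp, eq _ f v hf]⟩
  have enl : IsEnl Q0 Q1 := ⟨Subtype.ext (b1.trans a1.symm), b2.trans a2.symm,
    fun A hA => (b3 A).2 (((a3 A).1 hA).imp fun n h => h.imp fun b h => ⟨fun _ => trivial, h.2⟩),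
    fun A hA => (b4 A).2 (((a4 A).1 hA).imp_left fun h => h.imp fun n h => h.imp fun b h =>
      ⟨fun _ => trivial, h.2⟩)⟩
  refine ⟨x.Dn, Q1, x.Gd, ee x, x.o none, ⟨ex _ Q1 (fun _ => trivial) b1 b2 b3 b4 b5,
    H746.isStress_enl enl s0,
    ⟨(b4 _).2 ⟨Rq.fs_one trivial, fun f v hf => Subtype.ext ?_⟩, F.herm none, ?_⟩, ?_,
    fun f hf => ?_, fun A hA => ?_⟩, cyc_row w F b1 b3, cl_row b3⟩
  · refine (Rq.par t.sg V' none hf v).trans ?_
    rw [gd]
    exact one_smul _ _
  · intro s L a f v hs hL hf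
    apply Subtype.ext
    have := V'.cov none ⟨⟨s, L, a, hs, hL⟩, false⟩ 1 (fun _ => ((s ^ 2 : ℝ) : ℂ)) (fun _ => none) f v
      (x.Ud s L a v) (fun g hg => by
        rw [Fin.sum_univ_one, Complex.conj_ofReal]
        exact pot_U c ⟨⟨s, L, a, hs, hL⟩, false⟩ hg) hf (ud s L a v hs hL)
    rw [b2, this, Submodule.coe_smul, ud _ _ _ _ hs hL, Fin.sum_univ_one,
      show (4 - 2 : ℝ) = (2 : ℕ) by norm_num, Real.rpow_natCast]
    rfl
  · let p : Ix → Lb c.toCf := fun m => ⟨c.T m m, c.T m m, false, c.Q.bose_fld _ (c.hT.bose m m),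
      c.Q.bose_fld _ (c.hT.bose m m), c.hT.herm m m, fun f v hf =>
        (c.hN.bose _ f v (c.hT.bose m m) hf).trans (one_smul _ _).symm⟩
    have q2 : ∀ m f v, IsTest f → ee x (c.T m m) f v = x.o (some (p m)) f v := fun m f v hf =>
      (eq (p m) f v hf).symm
    have hc : ∀ f v, In Set.univ f →
        GF.tr (fun m n => ee x (c.T m n)) f v = (3 : ℂ) • x.o none (box f) v := by
      intro f v hf
      have z := V'.zero 5 (Fin.cons (-3) fun m => eta m) (Fin.cons none fun m => some (p m))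
        (Fin.cons (box f) fun _ => f) v (Fin.cases (Ap.in_box hf) fun _ => hf) (by
          rw [Fin.sum_univ_succ]
          simp only [Fin.cons_zero, Fin.cons_succ, neg_smul]
          rw [neg_add_eq_zero]
          refine (c.hl.trace f hf.1).trans ?_
          rw [GF.tr, coe_sum]
          exact Finset.sum_congr rfl fun m _ => by rw [Completion.coe_smul]; rfl)
      rw [Fin.sum_univ_succ] at z
      simp only [Fin.cons_zero, Fin.cons_succ, neg_smul, ← q2 _ _ _ hf.1] at z
      exact (neg_add_eq_zero.1 z).symm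
    rintro _ v ⟨f, rfl⟩
    obtain ⟨P, hP⟩ := box_clm
    obtain ⟨-, u, -, -, u2, -, u4⟩ := ST.exists_cut f
    have c1 : Continuous fun g : Sch => GF.tr (fun m n => ee x (c.T m n)) (ev g) v :=
      continuous_finset_sum _ fun m _ =>
        (continuous_finset_sum _ fun i _ =>
          F.cont (some ((dec c.toCf (c.T m m)).2 i)) v).const_smul (eta m : ℂ)
    have c2 : Continuous fun g : Sch => (3 : ℂ) • x.o none (box (ev g)) v := by
      simp only [← hP]
      exact ((F.cont none v).comp P.continuous).const_smul (3 : ℂ)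
    exact tendsto_nhds_unique ((c1.tendsto f).comp u4) (((c2.tendsto f).comp u4).congr
      fun n => (hc _ v ⟨⟨u n, rfl⟩, u2 n, Set.subset_univ _⟩).symm)
  · obtain ⟨g, rfl⟩ := hf
    obtain ⟨-, u, -, -, u2, -, u4⟩ := ST.exists_cut g
    have c1 : Continuous fun g : Sch => (x.o none (ev g) Q1.vac : Completion D) :=
      continuous_subtype_val.comp (F.cont none _)
    refine tendsto_nhds_unique ((c1.tendsto g).comp u4) (((c.hl.cont.tendsto g).comp u4).congr
      fun n => ?_)
    have hi : In Set.univ (ev (u n)) := ⟨⟨u n, rfl⟩, u2 n, Set.subset_univ _⟩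
    show c.l _ = (x.o none _ _ : Completion D)
    rw [F.oW none _ [] _ hi.1 (fun _ h => nomatch h) (b1.trans w.nil.symm),
      E.cw _ (List.forall_mem_singleton.2 hi)]
    exact (o.vac none _ hi).symm
  · obtain ⟨n, b, -, rfl⟩ := (b3 A).1 hA
    refine ⟨n, fun i => x.o (b i), fun i => ?_, fun _ _ => rfl⟩
    dsimp only
    cases b i with
    | none => exact .inl rfl
    | some p => exact .inr ⟨p.B, p.h, eq p⟩

end

end Vale.Agent.N352.EP
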