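import Vale.Agent.N352.EP.G3

/-!
# N352, block E, part G4: the letters act on the good vectors
-/

set_option linter.all false

open MeasureTheory Filter Topology
open scoped SchwartzMap ComplexConjugate

namespace Vale.Agent.N352.EP

open Vale.Agent.P352 Vale.Agent.P352.GF Vale.Agent.P352.BW Vale.Agent.P352.H246
open Vale.Agent.P352.H496 Vale.Agent.P352.H755 Vale.Agent.P352.H15
open Vale.Agent.P352.SubConf (IsAdj)
open Vale.Agent.P352X Vale.Agent.P352X.EB
open UniformSpace (Completion)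
open Bornology (IsBounded)
open KDa (dS barL)

noncomputable section

variable {D : Type*} [NormedAddCommGroup D] [InnerProductSpace ℂ D]

namespace Gx

variable {x : Nx D} {u v w ζ ζ' ξ ξ' η η' ω : Completion D} {f h : Fn} {K O : Set V}
  {g g' : Sh x.toCf} {Y : Completion D →ₗ[ℂ] Completion D}

lemma rel0 {c : Cf D} (g : Sh c) (p : Lb c) {n : ℕ} {κ : Fin n → ℂ} {q : Fin n → Lb c}
    (h : ∀ f v, IsTest f → p.B' f (c.Q.U g.s g.L g.a v) =
      ∑ i, conj (κ i) • c.Q.U g.s g.L g.a ((q i).B' (g.pull f) v)) :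
    Rel g p (fun i => sg (g.e && p.e) * κ i) q := fun f v w hf e => by
  have k : ((p.B' f (c.Q.U g.s g.L g.a v) : D) : Completion D) =
      ∑ i, conj (κ i) • Ug c.Q g.s g.L g.a ((q i).B' (g.pull f) v : D) := by
    simp only [h f v hf, STRa.coe_sum, Completion.coe_smul, Grp.coe g.hs g.hL]
  obtain ⟨g, _ | _⟩ := g
  · obtain rfl : c.Q.U g.s g.L g.a v = w :=
      Completion.coe_injective D ((Grp.coe g.hs g.hL _ _).symm.trans e)
    simpa only [Bool.false_and, sg_false, one_mul] using! k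
  · obtain rfl : c.G (c.Q.U g.s g.L g.a v) = w := Completion.coe_injective D (by
      rw [← e, ← c.hN.ext, ← Grp.coe g.hs g.hL]; rfl)
    rw [show p.B' f _ = _ from p.dag.par f _ hf, Completion.coe_smul, ← c.hN.ext]
    erw [k]
    simp only [map_sum, map_smul, Finset.smul_sum, smul_smul, map_mul, conj_sg, Bool.true_and]
    rfl

lemma in_inv (hf : In (g.act ⁻¹' O) f) : In O (g.inv.pull f) :=
  Ap.in_mono ((sg_row _).inn g.inv _ f hf) fun z hz => (sg_row _).act_inv g z ▸ hz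

lemma U_bs (g : Sh x.toCf) (p : Lb x.toCf) : ∃ (n : ℕ) (κ : Fin n → ℂ) (q : Fin n → Lb x.toCf),
    ∀ f, In Set.univ f → ∀ u ∈ Sm x.toCf,
      g.U x.toCf (Bs p f u) = ∑ i, κ i • Bs (q i) (g.inv.pull f) (g.U x.toCf u) ∧
      g.U x.toCf (Bs p.dag f u) = ∑ i, conj (κ i) • Bs (q i).dag (g.inv.pull f) (g.U x.toCf u) := by
  obtain ⟨n, q, κ, h⟩ := x.cv _ _ p.h p.h' p.a g.inv.toSg
  refine ⟨n, fun i => sg (g.inv.e && p.e) * κ i, q, fun f hf u hu => ?_⟩
  have h1 := bs_cov x.hE p (rel0 g.inv p fun f v hf => (h f v hf).2) hf (sm_U g hu)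
  have h2 := bs_cov x.hE p.dag (rel0 g.inv p.dag (κ := fun i => conj (κ i)) (q := fun i => (q i).dag)
    fun f v hf => by simpa only [Complex.conj_conj] using! (h f v hf).1) hf (sm_U g hu)
  rw [inv_U] at h1 h2
  simp only [h1, h2, map_sum, map_smul, U_inv, map_mul, conj_sg, true_and]
  rfl

/-- weak commutation in all frames -/
lemma wk_g (p : Lb x.toCf) (hf : In g.Op f) {d} (hd : d ∈ x.N W0) (hu : u ∈ Sm x.toCf)
    (hw : w ∈ Sm x.toCf) : inner ℂ (g.U x.toCf (Bs p.dag (bar f) w)) (d (g.U x.toCf u)) =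
      inner ℂ (g.U x.toCf w) (d (g.U x.toCf (Bs p f u))) := by
  obtain ⟨n, κ, q, h⟩ := U_bs g p
  rw [(h _ (Ap.in_univ' hf) u hu).1, (h _ (Ap.in_univ' (Ap.in_bar hf)) w hw).2, map_sum, sum_inner,
    inner_sum]
  refine Finset.sum_congr rfl fun i _ => ?_
  rw [map_smul, inner_smul_left, inner_smul_right, Complex.conj_conj,
    ← bs_wk x.hE _ (Ap.in_univ' (in_inv hf)) (x.wk d hd _ _ _ (q i).h (q i).a (in_inv hf))
      (sm_U g hu) (sm_U g hw)]
  rfl

lemma bop {X X' : Completion D → Completion D} (hX : ∀ u ∈ Sm x.toCf, X u ∈ Sm x.toCf)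
    (hK : IsBounded K) (h : ∀ g : Sh x.toCf, K ⊆ g.Op → ∀ d ∈ x.N W0, ∀ u ∈ Sm x.toCf,
      ∀ w ∈ Sm x.toCf, inner ℂ (g.U x.toCf (X' w)) (d (g.U x.toCf u)) = inner ℂ (g.U x.toCf w) (d (g.U x.toCf (X u))))
    (hv : v ∈ Dg x) : X v ∈ Fg x :=
  let ⟨K', a, b⟩ := co_le hv
  ⟨K ∪ K', hK.union a, fun g e => fd_of (fun d hd => h g (Set.subset_union_left.trans e) d hd v
    (co_sm hv) _ (hX v (co_sm hv))) (b g (Set.subset_union_right.trans e))⟩

lemma bs_dg (p : Lb x.toCf) (hf : In Set.univ f) (hv : v ∈ Dg x) : Bs p f v ∈ Dg x :=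
  bs_co x.hE p (fun f hf _ hu => bop (X' := Bs p.dag (bar f)) (fun _ => bs_sm x.hE p hf)
    hf.2.1.isCompact.isBounded (fun g e d hd u hu w hw => wk_g p ⟨hf.1, hf.2.1, e⟩ hd hu hw) hu)
    hf hv

lemma pw_ind {c : Cf D} (hO : Big (MW O)) (A : Submodule ℂ (Completion D)) (h0 : c.Om ∈ A)
    (h : ∀ (p : Lb c) f (v : D), In O f → (v : Completion D) ∈ A →
      ((p.B f v : D) : Completion D) ∈ A) : Dense (A : Set (Completion D)) := by
  refine (dense_PC (Q := c.Q) hO).mono ?_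
  rintro _ ⟨v, hv, rfl⟩
  induction (show PW c.Q (MW O) v from hv) with
  | vac => exact h0
  | add a b h1 h2 => simpa only [Completion.coe_add] using! A.add_mem (h1 a) (h2 b)
  | smul z a h1 => simpa only [Completion.coe_smul] using! A.smul_mem z (h1 a)
  | fld hB hg a h1 =>
    obtain ⟨q, -, -, e⟩ := ex_split (c := c) hB
    have := In_fl.2 hg
    beta_reduce
    rw [e _ _ this.1, Completion.coe_add]
    exact A.add_mem (h _ _ _ this (h1 a)) (h _ _ _ this (h1 a))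

lemma dg_dense : Dense (Dg x : Set (Completion D)) :=
  pw_ind (O := Set.univ) (fun _ => ⟨0, fun _ _ => trivial⟩) _ dg_vac fun p f v hf hv =>
    bs_coe x.hE p hf v ▸ bs_dg p hf hv

variable (x) in
/-- test vectors `ω = Y* Ω` -/
structure Tz (g : Sh x.toCf) (ω : Completion D) (Y : Completion D →ₗ[ℂ] Completion D) : Prop where
  sm : ∀ u ∈ Sm x.toCf, Y u ∈ Sm x.toCf
  wk : ∀ d ∈ x.N W0, ∀ u ∈ Sm x.toCf,
    inner ℂ (g.U x.toCf ω) (d (g.U x.toCf u)) = inner ℂ x.Om (d (g.U x.toCf (Y u)))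
  cm : ∀ (p : Lb x.toCf) f, In (g.act ⁻¹' W0) f → ∀ u ∈ Sm x.toCf, Y (Bs p f u) = Bs p f (Y u)

variable (x) in
/-- the test vectors of a region -/
def Ts (O : Set V) : Submodule ℂ (Completion D) where
  carrier := {ω | ω ∈ Sm x.toCf ∧ ∃ Y, ∀ g : Sh x.toCf, O ⊆ g.Op → Tz x g ω Y}
  add_mem' := fun ⟨a, Y, h⟩ ⟨a', Y', h'⟩ => ⟨add_mem a a', Y + Y', fun g e =>
    ⟨fun u k => add_mem ((h g e).sm u k) ((h' g e).sm u k), fun d hd u k => by
      simp only [map_add, inner_add_left, inner_add_right, LinearMap.add_apply, (h g e).wk d hd u k,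
        (h' g e).wk d hd u k], fun p f hf u k => by
      simp only [map_add, LinearMap.add_apply, (h g e).cm p f hf u k, (h' g e).cm p f hf u k]⟩⟩
  zero_mem' := ⟨zero_mem _, 0, fun _ _ => ⟨by simp, by simp, by simp⟩⟩
  smul_mem' := fun z _ ⟨a, Y, h⟩ => ⟨Submodule.smul_mem _ z a, conj z • Y, fun g e =>
    ⟨fun u k => Submodule.smul_mem _ _ ((h g e).sm u k), fun d hd u k => by
      simp only [map_smul, inner_smul_left, inner_smul_right, LinearMap.smul_apply,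
        (h g e).wk d hd u k], fun p f hf u k => by
      simp only [map_smul, LinearMap.smul_apply, (h g e).cm p f hf u k]⟩⟩

lemma ts_dense (hO : Big (MW O)) : Dense (Ts x O : Set (Completion D)) := by
  refine pw_ind (c := x.toCf) hO _ ⟨sm_coe _, LinearMap.id, fun g _ =>
    ⟨fun _ k => k, fun d _ u _ => by rw [SGx.vac]; rfl, fun _ _ _ _ _ => rfl⟩⟩ ?_
  rintro p f v hf ⟨a, Y, h⟩
  have hf' := Ap.in_univ' hf
  have hb := Ap.in_bar hf'
  refine ⟨sm_coe _, (x.gp p.e).toLinearMap ∘ₗ Y ∘ₗ Bs p.dag (bar f), fun g e => ?_⟩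
  have k := fun u hu => (h g e).sm _ (bs_sm x.hE p.dag hb (u := u) hu)
  refine ⟨fun u hu => ?_, fun d hd u hu => ?_, fun q l hl u hu => ?_⟩
  · cases p.e
    exacts [k u hu, sm_G (k u hu)]
  · have := wk_g p.dag (Ap.in_mono (Ap.in_bar hf) e) hd hu a
    rw [Ap.bar_bar] at this
    rw [← bs_coe x.hE p hf']
    refine (this.trans ((h g e).wk d hd _ (bs_sm x.hE _ hb hu))).trans ?_
    cases p.e
    · rfl
    · refine Eq.trans ?_ (congrArg (inner ℂ _) (DFunLike.congr_fun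
        (by rw [← mul_assoc, x.gam _ d hd, mul_assoc, SGx.gU] :
          x.Γ * (d * g.U x.toCf) = d * (g.U x.toCf * x.Γ)) _))
      rw [mul_apply_eq_comp, ← (gd x.toCf).gi, SGx.gv]
      rfl
  · have h1 := Ap.in_univ' hl
    simp only [LinearMap.comp_apply, ContinuousLinearMap.coe_coe]
    rw [bs_loc x.hE _ q hb h1 (Ap.sep_symm (sep_g _ hl (Ap.in_mono (Ap.in_bar hf) e))) hu, map_smul,
      (h g e).cm q l hl _ (bs_sm x.hE _ hb hu), map_smul, show p.dag.e = p.e from rfl]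
    cases p.e
    · exact one_smul _ _
    · exact (bs_par x.hE q h1 (k u hu)).symm

lemma Tz.cov (t : Tz x g ω Y) (k : Sh x.toCf) : Tz x (g.mul k) (k.inv.U x.toCf ω)
    ((k.inv.U x.toCf).toLinearMap ∘ₗ Y ∘ₗ (k.U x.toCf).toLinearMap) := by
  refine ⟨fun u hu => sm_U _ (t.sm _ (sm_U _ hu)), fun d hd u hu => ?_, fun p f hf u hu => ?_⟩
  · simp only [U_mul, U_inv, LinearMap.comp_apply, ContinuousLinearMap.coe_coe]
    exact t.wk d hd _ (sm_U _ hu)
  · obtain ⟨n, κ, q, h⟩ := U_bs k p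
    have h1 : In (g.act ⁻¹' W0) (k.inv.pull f) :=
      in_inv (Ap.in_mono hf fun z hz => by rwa [Set.mem_preimage, (sg_row _).act_mul] at hz)
    simp only [LinearMap.comp_apply, ContinuousLinearMap.coe_coe]
    rw [← inv_U k (Bs p f (k.inv.U x.toCf _)), (h f (Ap.in_univ' hf) u hu).1,
      (h f (Ap.in_univ' hf) _ (sm_U _ (t.sm _ (sm_U _ hu)))).1, U_inv]
    simp only [map_sum, map_smul, t.cm _ _ h1 _ (sm_U _ hu)]

variable (x) in
/-- the product relation in a frame -/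
def Prd (g : Sh x.toCf) (ξ' η ζ : Completion D) : Prop :=
  ∀ ω Y, Tz x g ω Y → inner ℂ ω ζ = inner ℂ ξ' (Y η)

variable (x) in
/-- the product relation -/
def Rl (K : Set V) (ξ' η ζ : Completion D) : Prop := ∀ g : Sh x.toCf, g.Adm K → Prd x g ξ' η ζ

variable (x) in
open Classical in
/-- the product -/
def ml (ξ' η : Completion D) : Completion D :=
  if h : ∃ ζ K, IsBounded K ∧ Rl x K ξ' η ζ then h.choose else 0

lemma uni (hO : Big (MW (g.Op ∩ g'.Op))) (a : Prd x g ξ' η ζ) (b : Prd x g' ξ' η ζ') : ζ = ζ' :=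
  (ts_dense (x := x) hO).eq_of_inner_right ℂ fun ω ⟨_, Y, h⟩ =>
    (a ω Y (h g Set.inter_subset_left)).trans (b ω Y (h g' Set.inter_subset_right)).symm

lemma Rl.mono {K' : Set V} (h : Rl x K ξ' η ζ) (e : K ⊆ K') : Rl x K' ξ' η ζ :=
  fun g k => h g fun z hz => k z (e hz)

lemma ml_eq (hK : IsBounded K) (h : Rl x K ξ' η ζ) : ml x ξ' η = ζ := by
  have e : ∃ ζ K, IsBounded K ∧ Rl x K ξ' η ζ := ⟨ζ, K, hK, h⟩
  rw [ml, dif_pos e]
  obtain ⟨K', a, b⟩ := e.choose_spec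
  obtain ⟨g, k⟩ := (sg_row x.toCf).ex _ (hK.union a)
  exact uni (big1 _) (b.mono Set.subset_union_right g k) (h.mono Set.subset_union_left g k)

lemma Rl.zero (hK : IsBounded K) (h : Rl x K 0 η ζ) : ζ = 0 :=
  (ml_eq hK h).symm.trans (ml_eq hK fun _ _ _ _ _ => by simp)

lemma Rl.sum {ι : Type} [Fintype ι] (κ : ι → ℂ) {ξ ζ : ι → Completion D}
    (h : ∀ i, Rl x K (ξ i) η (ζ i)) : Rl x K (∑ i, conj (κ i) • ξ i) η (∑ i, κ i • ζ i) :=
  fun g k ω Y t => by
    simp only [sum_inner, inner_sum, inner_smul_left, inner_smul_right, Complex.conj_conj,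
      fun i => h i g k ω Y t]

lemma Rl.cov (k : Sh x.toCf) (h : Rl x K ξ' η ζ) :
    Rl x (k.act '' K) (k.U x.toCf ξ') (k.U x.toCf η) (k.U x.toCf ζ) := fun g a ω Y t => by
  have := h (g.mul k) (fun z hz => (sg_row _).act_mul g k z ▸ a _ ⟨z, hz, rfl⟩) _ _ (t.cov k)
  rw [← U_inn k, ← U_inn k ξ'] at this
  simpa only [U_inv, LinearMap.comp_apply, ContinuousLinearMap.coe_coe] using this

lemma rl_B (p : Lb x.toCf) (hf : In Set.univ f) (hu : u ∈ Sm x.toCf) :
    Rl x (tsupport f) (p.B' (bar f) x.Q.vac : D) u (Bs p f u) := fun g k ω Y t => by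
  have := t.wk 1 (one_mem _) _ (bs_sm x.hE p hf hu)
  rw [ContinuousLinearMap.one_apply, ContinuousLinearMap.one_apply, U_inn, ← SGx.vac g, U_inn,
    t.cm p f ⟨hf.1, hf.2.1, k⟩ u hu] at this
  exact this.trans (bs_adj x.hE p hf (t.sm u hu) _)

/-- the context for the words -/
def _root_.Vale.Agent.N352.EP.Nx.ctx (x : Nx D) : Ctx D :=
  ⟨x.toCf, x.T, x.l, x.hT, x.hl, ml x, fun v => v ∈ Dg x⟩

variable (x) in
/-- the letters -/
abbrev lt : Lt x.ctx (Lab x.ctx) := lx (cov_row x.cv)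

lemma op_some (p : Lb x.toCf) (hf : In Set.univ f) (hu : u ∈ Sm x.toCf) :
    (lt x).op (some p) f u = Bs p f u := ml_eq hf.2.1.isCompact.isBounded (rl_B p hf hu)

lemma tend {s : ℕ → Completion D} {C : ℝ} (h : ∀ j, ‖s j - ζ‖ ≤ C * (1 / 2) ^ j) :
    Tendsto s atTop (𝓝 ζ) := tendsto_iff_norm_sub_tendsto_zero.2 (squeeze_zero
  (fun _ => norm_nonneg _) h (by
    simpa using (tendsto_pow_atTop_nhds_zero_of_lt_one one_half_pos.le one_half_lt_one).const_mul C))

lemma t8 : Tendsto (fun j : ℕ => 8 ^ j) atTop atTop := tendsto_pow_atTop_atTop_of_one_lt (by norm_num)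

lemma lim_prd (hv : v ∈ Dg x) {a : ℕ → Completion D →L[ℂ] Completion D} {C : ℝ} {N : ℕ}
    (ha : ∀ n, a n ∈ x.N W0 ∧ ‖a n‖ ≤ C * ((n : ℝ) + 1) ^ N) (hs : Apx x.Om ξ (g.U x.toCf ξ') a) :
    ∃ ζ, Prd x g ξ' v ζ ∧ ∃ C' : ℝ, ∀ j, ‖a (8 ^ j) (g.U x.toCf v) - g.U x.toCf ζ‖ ≤ C' * (1 / 2) ^ j ∧
      ‖a (8 ^ j)‖ ≤ C' * 2 ^ (3 * N * j) := by
  obtain ⟨ζ, C', h⟩ := lim (dg_U g hv) ha hs.1
  refine ⟨g.inv.U x.toCf ζ, fun ω Y t => ?_, C', by rwa [U_inv]⟩
  rw [← U_inn g, ← U_inn g ξ', U_inv]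
  refine tendsto_nhds_unique (tendsto_const_nhds.inner (tend fun j => (h j).1))
    ((((TMB'.se_lim hs.2).comp t8).inner tendsto_const_nhds).congr fun j => ?_)
  rw [t.wk _ (ha _).1 v (co_sm hv), Function.comp, ContinuousLinearMap.star_eq_adjoint,
    ContinuousLinearMap.adjoint_inner_left]

lemma tm_g (hf : In (g.act ⁻¹' W0) f) :
    ∃ k, Tm (x.N W0) x.Om k (g.U x.toCf (x.l f)) (g.U x.toCf (x.l (bar f))) := by
  obtain ⟨k, h⟩ := x.tm
  have e : ∀ f, IsTest f → g.U x.toCf (x.l f) = ((g.inv.s ^ 2 : ℝ) : ℂ) • x.l (g.inv.pull f) :=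
    fun f hf => (congrArg _ (pot_U x.ctx g.inv hf)).trans (by rw [map_smul]; erw [U_inv]; rfl)
  have := (tmb_row (H := Completion D)).smul _ _ _ ((g.inv.s ^ 2 : ℝ) : ℂ) _ _ (h _ (in_inv hf))
  rw [Complex.conj_ofReal] at this
  exact ⟨k, by rw [e _ hf.1, e _ (Ap.test_bar hf.1)]; exact this⟩

lemma rl (a : Lab x.ctx) (hf : In Set.univ f) (hv : v ∈ Dg x) :
    Rl x (tsupport f) ((lt x).φ ((lt x).dag a) (bar f)) v ((lt x).op a f v) := by
  have hK := hf.2.1.isCompact.isBounded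
  suffices ∃ ζ, Rl x (tsupport f) ((lt x).φ ((lt x).dag a) (bar f)) v ζ from
    this.elim fun ζ k => (show (lt x).op a f v = ζ from ml_eq hK k).symm ▸ k
  obtain _ | p := a
  swap
  · exact ⟨_, rl_B p hf (co_sm hv)⟩
  have e : ∀ g : Sh x.toCf, g.Adm (tsupport f) → ∃ ζ, Prd x g (x.l (bar f)) v ζ := fun g k =>
    let ⟨_, _, _, a, b⟩ := tm_g (g := g) ⟨hf.1, hf.2.1, k⟩
    (lim_prd hv a b).imp fun _ => And.left
  obtain ⟨g0, k0⟩ := (sg_row x.toCf).ex _ hK
  obtain ⟨ζ, h0⟩ := e g0 k0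
  refine ⟨ζ, fun g k => ?_⟩
  obtain ⟨g3, g4, k3, k4, b1, b2, b3⟩ := chain hK g0.toSg g.toSg
  obtain ⟨ζ3, h3⟩ := e ⟨g3, false⟩ k3
  obtain ⟨ζ4, h4⟩ := e ⟨g4, false⟩ k4
  obtain ⟨ζ5, h5⟩ := e g k
  obtain rfl : ζ = ζ5 := (uni (g := g0) (g' := ⟨g3, false⟩) b1 h0 h3).trans
    ((uni (g := ⟨g3, false⟩) (g' := ⟨g4, false⟩) b2 h3 h4).trans
      (uni (g := ⟨g4, false⟩) (g' := g) b3 h4 h5))
  exact h5

/-- approximation of the potential by bounded operators -/
def Ao (x : Nx D) (g : Sh x.toCf) (O : Set V) (f : Fn) : Prop :=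
  ∃ (b : ℕ → Completion D →L[ℂ] Completion D) (p : ℕ), (∀ j, b j ∈ x.N O) ∧
    Tendsto (fun j => b j x.Om) atTop (𝓝 (g.U x.toCf (x.l f))) ∧ ∀ v ∈ Dg x,
      (∃ C : ℝ, ∀ j, ‖b j (g.U x.toCf v) - g.U x.toCf ((lt x).op none f v)‖ ≤ C * (1 / 2) ^ j ∧
        ‖b j‖ ≤ C * 2 ^ (p * j)) ∧
      Tendsto (fun j => star (b j) (g.U x.toCf v)) atTop (𝓝 (g.U x.toCf ((lt x).op none (bar f) v)))

lemma ao0 (hf : In (g.act ⁻¹' W0) f) : Ao x g W0 f := by
  obtain ⟨k, C, a, h1, h2⟩ := tm_g hf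
  refine ⟨fun j => a (8 ^ j), 3 * k, fun j => (h1 _).1, (TMB'.se_lim h2.1).comp t8, fun v hv => ⟨?_, ?_⟩⟩
  · obtain ⟨ζ, h3, h4⟩ := lim_prd hv h1 h2
    rwa [uni (big1 _) (rl none (Ap.in_univ' hf) hv g hf.2.2) h3]
  · obtain ⟨ζ, h3, C', h4⟩ := lim_prd hv (a := fun n => star (a n)) (ξ' := x.l (bar (bar f)))
      (fun n => ⟨star_mem (h1 n).1, (norm_star _).trans_le (h1 n).2⟩)
      ⟨h2.2, by simpa only [star_star, Ap.bar_bar] using h2.1⟩
    rw [uni (big1 _) (rl none (Ap.in_univ' (Ap.in_bar hf)) hv g (Ap.in_bar hf).2.2) h3]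
    exact tend fun j => (h4 j).1

lemma ao1 (hf : In g.Op f) : Ao x g W1 f := by
  obtain ⟨r0, hr⟩ := ex_flip
  let r : Sh x.toCf := ⟨r0, false⟩
  obtain ⟨b, p, h1, h2, h3⟩ := ao0 (g := r.mul g) (Ap.in_mono hf fun z hz => by
    rw [Set.mem_preimage, (sg_row _).act_mul]
    exact (hr _).2 hz)
  have e : ∀ X : Completion D →L[ℂ] Completion D, ∀ z,
      (r.inv.U x.toCf * X * star (r.inv.U x.toCf)) z = r.inv.U x.toCf (X (r.U x.toCf z)) := fun X z => by
    rw [SGx.U_inv, star_star]; rfl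
  have t := fun z => (r.inv.U x.toCf).continuous.tendsto z
  simp only [U_mul] at h2 h3
  refine ⟨fun j => r.inv.U x.toCf * b j * star (r.inv.U x.toCf), p, fun j => x.mono _ _ ?_ _
    (x.cov r.inv _ _ (h1 j)), ?_, fun v hv => ⟨(h3 v hv).1.imp fun C k j => ⟨?_, ?_⟩, ?_⟩⟩
  · rintro _ ⟨z, hz, rfl⟩
    exact (hr _).1 (((sg_row _).act_inv r z).symm ▸ hz)
  · simpa only [e, SGx.vac, inv_U, Function.comp_def] using (t _).comp h2
  · rw [e, ← inv_U r (g.U x.toCf ((lt x).op _ _ _)), ← map_sub, U_nrm]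
    exact (k j).1
  · rw [CStarRing.norm_mul_mem_unitary _ (Unitary.star_mem (SGx.uni r.inv)),
      CStarRing.norm_mem_unitary_mul _ (SGx.uni r.inv)]
    exact (k j).2
  · simp only [star_mul, star_star, ← mul_assoc, e]
    simpa only [inv_U, Function.comp_def] using (t _).comp (h3 v hv).2

lemma wk_op (a : Lab x.ctx) (hf : In g.Op f) {d} (hd : d ∈ x.N W0) (hv : v ∈ Dg x)
    (hw : w ∈ Dg x) : inner ℂ (g.U x.toCf ((lt x).op ((lt x).dag a) (bar f) w)) (d (g.U x.toCf v)) =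
      inner ℂ (g.U x.toCf w) (d (g.U x.toCf ((lt x).op a f v))) := by
  obtain _ | p := a
  · obtain ⟨b, p, h1, -, h3⟩ := ao1 hf
    obtain ⟨C, h4⟩ := (h3 v hv).1
    refine tendsto_nhds_unique ((h3 w hw).2.inner tendsto_const_nhds) ((tendsto_const_nhds.inner
      ((d.continuous.tendsto _).comp (tend fun j => (h4 j).1))).congr fun j => ?_)
    rw [ContinuousLinearMap.star_eq_adjoint, ContinuousLinearMap.adjoint_inner_left,
      ← mul_apply_eq_comp (b j), ← x.loc d hd _ (h1 j)]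
    rfl
  · rw [op_some p (Ap.in_univ' hf) (co_sm hv)]
    erw [op_some p.dag (Ap.in_univ' (Ap.in_bar hf)) (co_sm hw)]
    exact wk_g p hf hd (co_sm hv) (co_sm hw)

lemma op_herm (a : Lab x.ctx) (hf : In Set.univ f) (hv : v ∈ Dg x) (hw : w ∈ Dg x) :
    inner ℂ ((lt x).op ((lt x).dag a) (bar f) w) v = inner ℂ w ((lt x).op a f v) := by
  obtain ⟨r0, hr⟩ := ex_flip
  obtain ⟨g, k⟩ := (sg_row x.toCf).ex _ hf.2.1.isCompact.isBounded
  have := wk_op (g := (Sh.inv ⟨r0, false⟩).mul g) a ⟨hf.1, hf.2.1, fun z hz => (hr _).1 (by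
    rw [(sg_row _).act_mul]
    exact ((sg_row x.toCf).act_inv ⟨r0, false⟩ _).symm ▸ k z hz)⟩ (one_mem _) hv hw
  simpa only [ContinuousLinearMap.one_apply, U_inn] using this

lemma op_lin (a : Lab x.ctx) (z : ℂ) (hf : In Set.univ f) (hh : In Set.univ h) (hv : v ∈ Dg x) :
    (lt x).op a (fun y => f y + z * h y) v = (lt x).op a f v + z • (lt x).op a h v := by
  have e : bar (fun y => f y + z * h y) = fun y => bar f y + conj z * bar h y := by
    funext y; simp [bar]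
  rw [Lt.op, e, (lt x).lin _ _ _ _ (Ap.test_bar hf.1) (Ap.test_bar hh.1)]
  refine ml_eq (hf.2.1.isCompact.isBounded.union hh.2.1.isCompact.isBounded) fun g k ω Y t => ?_
  rw [inner_add_left, inner_add_right, inner_smul_left, inner_smul_right, Complex.conj_conj,
    (rl a hf hv).mono Set.subset_union_left g k ω Y t,
    (rl a hh hv).mono Set.subset_union_right g k ω Y t]

lemma op_add (a : Lab x.ctx) (z : ℂ) (hf : In Set.univ f) (hv : v ∈ Dg x) (hw : w ∈ Dg x) :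
    (lt x).op a f (v + z • w) = (lt x).op a f v + z • (lt x).op a f w :=
  ml_eq hf.2.1.isCompact.isBounded fun g k ω Y t => by
    simp only [map_add, map_smul, inner_add_right, inner_smul_right, rl a hf hv g k ω Y t,
      rl a hf hw g k ω Y t]

lemma op_cov (a : Lab x.ctx) {n : ℕ} {κ : Fin n → ℂ} {b : Fin n → Lab x.ctx}
    (k : (lt x).Cv a g κ b) (hf : In Set.univ f) (hv : v ∈ Dg x) :
    (lt x).op a f (g.U x.toCf v) = ∑ i, κ i • g.U x.toCf ((lt x).op (b i) (g.pull f) v) := by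
  have h1 := Ap.in_univ' ((sg_row _).inn g _ f hf)
  rw [Lt.op, k _ (Ap.test_bar hf.1)]
  exact ml_eq ((sg_row _).bdd g _ h1.2.1.isCompact.isBounded)
    (Rl.sum κ fun i => (rl (b i) h1 hv).cov g)

lemma op_vac (a : Lab x.ctx) (hf : In Set.univ f) : (lt x).op a f x.Om = (lt x).φ a f := by
  obtain _ | p := a
  · obtain ⟨g, k⟩ := (sg_row x.toCf).ex _ hf.2.1.isCompact.isBounded
    obtain ⟨b, p, -, h2, h3⟩ := ao0 (g := g) ⟨hf.1, hf.2.1, k⟩
    obtain ⟨C, h4⟩ := (h3 _ dg_vac).1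
    rw [SGx.vac] at h4
    have := congrArg (g.inv.U x.toCf) (tendsto_nhds_unique (tend fun j => (h4 j).1) h2)
    rwa [inv_U, inv_U] at this
  · exact (op_some p hf (sm_coe _)).trans (bs_coe x.hE p hf _)

lemma in_cut (R : ℕ) (F : Sch) :
    In (Metric.closedBall 0 (2 * ((R : ℝ) + 1))) (cutf R (ev F)) :=
  Ap.in_mono (ana_row.inn R _ (Ap.test_ev F)) Set.inter_subset_right

/-- a letter with a cutoff, as a linear map -/
def opL (a : Lab x.ctx) (R : ℕ) (hv : v ∈ Dg x) : Sch →ₗ[ℂ] Completion D :=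
  EG.H.JBp.mkL (fun F => (lt x).op a (cutf R (ev F)) v) fun F G z => by
    rw [← op_lin a z (Ap.in_univ' (in_cut R F)) (Ap.in_univ' (in_cut R G)) hv]
    congr 1
    funext y
    simp [cutf, ev]
    ring

lemma op_cont (a : Lab x.ctx) (R : ℕ) (hv : v ∈ Dg x) : Continuous (opL a R hv) := by
  obtain ⟨g, hg⟩ := (sg_row x.toCf).ex _
    (Metric.isBounded_closedBall (x := (0 : V)) (r := 2 * ((R : ℝ) + 1)))
  haveI := ana_row.barr
  refine cont_of_weak _ (ts_dense (x := x) (big1 g.toSg)) ?_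
  rintro ω ⟨-, Y, h⟩
  obtain ⟨P, hP⟩ := ana_row.clm R
  have e : ∀ F : Sch, inner ℂ ω (opL a R hv F) =
      inner ℂ ((lt x).φ ((lt x).dag a) (ev (barL (P F)))) (Y v) := fun F => by
    rw [KDa.ev_barL, hP]
    exact rl a (Ap.in_univ' (in_cut R F)) hv g (fun z hz => hg z ((in_cut R F).2.2 hz)) ω Y
      (h g Set.inter_subset_left)
  simp only [e]
  exact (((lt x).cont _).comp (barL.continuous.comp P.continuous)).inner continuous_const

lemma op_dr (a : Lab x.ctx) {y : V} {v' : Completion D} (hf : In Set.univ f) (hv : v ∈ Dg x)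
    (hv' : v' ∈ Dg x) (h : Dr x.toCf y v v') :
    Dr x.toCf y ((lt x).op a f v) ((lt x).op a f v' - (lt x).op a (dv y f) v) := by
  obtain ⟨F, rfl⟩ := hf.1
  obtain ⟨ρ, hρ⟩ := hf.2.1.isCompact.isBounded.subset_closedBall 0
  obtain ⟨R, hR⟩ := exists_nat_ge ρ
  have e : ∀ s : V, ‖s‖ ≤ 1 → ∀ G : Sch, tsupport (ev G) ⊆ tsupport (ev F) →
      cutf R (ev (ST.tsl s G)) = ev (ST.tsl s G) := fun s hs G k => ana_row.eq R _ fun z hz => by
    have := mem_closedBall_zero_iff.1 (hρ (k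
      (tsupport_comp_subset_preimage G (continuous_sub_right s) hz)))
    exact mem_closedBall_zero_iff.2 (by linarith [norm_sub_norm_le z s])
  have e0 : ∀ G : Sch, tsupport (ev G) ⊆ tsupport (ev F) → cutf R (ev G) = ev G := fun G k => by
    simpa only [show ST.tsl 0 G = G from SchwartzMap.ext fun z => by simp [ST.tsl_apply]] using
      e 0 (by simp) G k
  have hb : tsupport (ev (barL F)) ⊆ tsupport (ev F) := (H246.tsupport_bar _).subset
  refine dr_gen dg_dense (fun s w hw => dg_U (tr _ s) hw) (barL F) h fun w hw =>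
    ⟨⟨opL ((lt x).dag a) R hw, op_cont _ R hw⟩, ?_, ?_, ?_⟩
  · have : ContinuousAt (fun t : ℝ => ‖t • y‖) 0 := by fun_prop
    filter_upwards [this.eventually_lt_const (by simp : _ < (1 : ℝ))] with t ht
    have k := op_cov (g := tr _ (-(t • y))) ((lt x).dag a) (κ := fun _ : Fin 1 => 1)
      (b := fun _ => (lt x).dag a) (fun f hf => by simpa using! (lt x).tra _ _ f hf)
      (Ap.in_bar hf) hw
    rw [Fin.sum_univ_one, one_smul] at k
    rw [ut_adj, ut_adj]
    refine (op_herm a hf hv (dg_U (tr _ (-(t • y))) hw)).symm.trans ?_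
    rw [k]
    show _ = inner ℂ (Ut _ _ ((lt x).op _ (cutf R (ev _)) w)) v
    refine congrArg (fun z => inner ℂ (Ut _ _ ((lt x).op _ z w)) v) ?_
    rw [e _ ht.le _ hb]
    funext z
    show bar (ev F) ((tr _ _).act z) = _
    rw [tr_act, ← sub_eq_add_neg]
    rfl
  · rw [← op_herm a hf hv' hw, ← KDa.ev_barL, ← e0 _ hb]
    rfl
  · have : ev (dS y (barL F)) = bar (dv y (ev F)) := by
      rw [KDa.ev_dS]
      exact funext fun z => Ap.dv_bar F.differentiableAt y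
    rw [← op_herm a (Ap.in_dv y hf) hv hw, ← this, ← e0 _ (this ▸ (Ap.in_bar
      (Ap.in_dv y (⟨hf.1, hf.2.1, le_rfl⟩ : In (tsupport (ev F)) _))).2.2)]
    rfl

lemma op_mem (a : Lab x.ctx) (hf : In Set.univ f) (hv : v ∈ Dg x) : (lt x).op a f v ∈ Dg x := by
  obtain _ | p := a
  swap
  · exact op_some p hf (co_sm hv) ▸ bs_dg p hf hv
  refine co_span (A := {z | ∃ f, In Set.univ f ∧ ∃ u ∈ Dg x, z = (lt x).op none f u}) ?_
    (fun y => ?_) ⟨f, hf, v, hv, rfl⟩ <;> rintro _ ⟨f, hf, u, hu, rfl⟩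
  · obtain ⟨K, a, k⟩ := co_le hu
    refine ⟨_, a.union hf.2.1.isCompact.isBounded, fun g e => ?_⟩
    obtain ⟨b, p, h1, -, h3⟩ := ao1 (g := g) ⟨hf.1, hf.2.1, Set.subset_union_right.trans e⟩
    obtain ⟨C, h4⟩ := (h3 u hu).1
    exact fd_lim (fun j => ⟨h1 j, h4 j⟩) (k g (Set.subset_union_left.trans e))
  · obtain ⟨u', a, b⟩ := co_dd y hu
    exact ⟨_, Submodule.sub_mem _ (Submodule.subset_span ⟨f, hf, u', a, rfl⟩)
      (Submodule.subset_span ⟨_, Ap.in_dv y hf, u, hu, rfl⟩), op_dr none hf hu a b⟩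

lemma loc_L (b : Lab x.ctx) {s t : V} (hs : GF.mdot (s - t) (s - t) < 0) :
    ∃ ε : ℝ, 0 < ε ∧ ∀ f h, In (Metric.ball s ε) f → In (Metric.ball t ε) h → ∀ v ∈ Dg x,
      (lt x).op none f ((lt x).op b h v) = (lt x).op b h ((lt x).op none f v) := by
  obtain ⟨ε, h0, g, g', k, k', e, -⟩ := geo_row.sep s t hs
  refine ⟨ε, h0, fun f h hf hh v hv => (dg_dense (x := x)).eq_of_inner_right ℂ fun w hw => ?_⟩
  let G : Sh x.toCf := ⟨g, false⟩
  have h1 := Ap.in_univ' hh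
  obtain ⟨a, p, h2, -, h3⟩ := ao0 (g := G) (Ap.in_mono hf k)
  obtain ⟨C, h4⟩ := (h3 v hv).1
  obtain ⟨C', h5⟩ := (h3 _ (op_mem b h1 hv)).1
  rw [← op_herm b h1 (op_mem none (Ap.in_univ' hf) hv) hw, ← U_inn G, ← U_inn G _ ((lt x).op none f v)]
  exact tendsto_nhds_unique (tendsto_const_nhds.inner (tend fun j => (h5 j).1))
    ((tendsto_const_nhds.inner (tend fun j => (h4 j).1)).congr fun j =>
      wk_op (g := G) b (Ap.in_mono hh fun z hz => e (k' z hz)) (h2 j) hv hw)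

lemma op_loc (a b : Lab x.ctx) (hf : In Set.univ f) (hh : In Set.univ h) (hs : GF.Sep f h)
    (hv : v ∈ Dg x) : (lt x).op a f ((lt x).op b h v) =
      (lt x).sn a b • (lt x).op b h ((lt x).op a f v) := by
  have l1 : ∀ a {f f' v}, In Set.univ f → In Set.univ f' → v ∈ Dg x →
      (lt x).op a (fun y => f y + f' y) v = (lt x).op a f v + (lt x).op a f' v :=
    fun a _ _ _ h h' k => by simpa using op_lin a 1 h h' k
  have l2 : ∀ a {f v w}, In Set.univ f → v ∈ Dg x → w ∈ Dg x →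
      (lt x).op a f (v + w) = (lt x).op a f v + (lt x).op a f w :=
    fun a _ _ _ h k k' => by simpa using op_add a 1 h k k'
  have key : (∀ s t : V, GF.mdot (s - t) (s - t) < 0 → ∃ ε : ℝ, 0 < ε ∧ ∀ f h,
      In (Metric.ball s ε) f → In (Metric.ball t ε) h → ∀ v ∈ Dg x,
        (lt x).op a f ((lt x).op b h v) = (lt x).op b h ((lt x).op a f v)) →
      (lt x).op a f ((lt x).op b h v) = (lt x).op b h ((lt x).op a f v) := fun k =>
    sub_eq_zero.1 (pou_row _ (fun f h => (lt x).op a f ((lt x).op b h v) -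
      (lt x).op b h ((lt x).op a f v)) (fun f f' g h1 h2 h3 => by
        rw [l1 a h1 h2 hv, l1 a h1 h2 (op_mem b h3 hv), l2 b h3 (op_mem a h1 hv) (op_mem a h2 hv)]
        abel) (fun f g g' h1 h2 h3 => by
        rw [l1 b h2 h3 hv, l1 b h2 h3 (op_mem a h1 hv), l2 a h1 (op_mem b h2 hv) (op_mem b h3 hv)]
        abel) (fun s t e => (k s t e).imp fun ε q => ⟨q.1, fun f g h1 h2 =>
          sub_eq_zero.2 (q.2 f g h1 h2 v hv)⟩) f h hf hh hs)
  obtain _ | p := a
  · exact (key fun s t e => loc_L b e).trans (one_smul _ _).symm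
  obtain _ | q := b
  · refine (key fun s t e => (loc_L (some p) (s := t) (t := s) (by
      rwa [← neg_sub, md_neg, md_neg_l, neg_neg])).imp fun ε q => ⟨q.1, fun f g h1 h2 v k =>
        (q.2 g f h2 h1 v k).symm⟩).trans ?_
    rw [show (lt x).sn (some p) none = sg (p.e && false) from rfl, Bool.and_false, sg_false, one_smul]
  · have k := co_sm hv
    rw [op_some p hf k, op_some q hh k, op_some p hf (bs_sm x.hE q hh k),
      op_some q hh (bs_sm x.hE p hf k)]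
    exact bs_loc x.hE p q hf hh hs k

end Gx

open Gx in
/-- **row OPS** -/
theorem ops_row (x : Nx D) : OPS (lx (c := x.ctx) (cov_row x.cv)) where
  d_vac := dg_vac
  d_zero := zero_mem (Dg x)
  d_add _ _ := (Dg x).add_mem
  d_smul z _ := (Dg x).smul_mem z
  d_U g _ := dg_U g
  mem a _ _ := op_mem a
  add a f v w h k k' := by simpa using op_add a 1 h k k'
  smul a f z v h k := by
    have := op_add a 1 h (zero_mem _) (zero_mem _)
    rw [one_smul, add_zero, one_smul, left_eq_add] at this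
    simpa [this] using op_add a z h (zero_mem _) k
  lin a _ _ z _ := op_lin a z
  herm a f v w h k k' := by rw [← inner_conj_symm, ← op_herm a h k k', inner_conj_symm]
  cov a _ _ _ _ _ _ := op_cov a
  loc a b _ _ _ := op_loc a b
  aff a B B' f v w h hf hv _ := by
    obtain ⟨q, -, -, e⟩ := ex_split (c := x.toCf) h.1
    have e' : ∀ y, B' (bar f) y = (q false).B' (bar f) y + (q true).B' (bar f) y := fun y =>
      ext_inner_left ℂ fun z => by
        rw [← h.2.2.1 f z y hf.1, e f z hf.1, inner_add_left, inner_add_right, (q _).a f z y hf.1,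
          (q _).a f z y hf.1]
    have k := co_sm hv
    rw [Lt.op, (h.2.2.2 _ (Ap.test_bar hf.1)).2, e', e', Completion.coe_add, Completion.coe_add]
    rw [show x.ctx.ml _ v = Bs (q false) f v + Bs (q true) f v from
      ml_eq hf.2.1.isCompact.isBounded fun g a ω Y t => by
        rw [inner_add_left, inner_add_right, rl_B _ hf k g a ω Y t, rl_B _ hf k g a ω Y t]; rfl,
      ← inner_conj_symm, inner_add_right, bs_adj x.hE _ hf k, bs_adj x.hE _ hf k,
      ← inner_add_left, inner_conj_symm]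
  zero n κ b f v hf h hv := by
    have hK : IsBounded (⋃ i, tsupport (f i)) :=
      (Bornology.isBounded_iUnion).2 fun i => (hf i).2.1.isCompact.isBounded
    have h1 := Rl.sum (fun i => conj (κ i)) fun i => (rl ((lt x).dag (b i)) (Ap.in_bar (hf i))
      dg_vac).mono ((H246.tsupport_bar _).subset.trans (Set.subset_iUnion (fun i => tsupport (f i)) i))
    simp only [Complex.conj_conj, (lt x).dag2, Ap.bar_bar, op_vac _ (Ap.in_bar (hf _))] at h1
    have h2 := Rl.sum κ fun i => (rl (b i) (hf i) hv).mono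
      (Set.subset_iUnion (fun i => tsupport (f i)) i)
    erw [h] at h1
    rw [h1.zero hK] at h2
    exact h2.zero hK
  cont a R _ h := op_cont a R h
  vac a _ := op_vac a

end

end Vale.Agent.N352.EP
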