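import Vale.Agent.N352.EP.Wd
import Vale.Agent.N352.Main

/-!
# N352, block EP: from the extension to the conformal symmetry, without a net
-/

set_option linter.all false

open Filter Topology

namespace Vale.Agent.N352.EP.Mn

open Vale.Agent.P352 Vale.Agent.P352.GF Vale.Agent.P352.BW Vale.Agent.P352.H246
open Vale.Agent.P352.H496 Vale.Agent.P352.H755 Vale.Agent.P352.H15
open Vale.Agent.P352.SubConf (IsAdj)
open Vale.Agent.P352X Vale.Agent.P352L Vale.Agent.P352R
open UniformSpace (Completion)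

noncomputable section

universe u v

variable {D : Type u} [NormedAddCommGroup D] [InnerProductSpace ℂ D]
  {D' : Type v} [NormedAddCommGroup D'] [InnerProductSpace ℂ D']

/-! ### fields that annihilate the vacuum -/

/-- mixing in the sector of the stress tensor -/
def MX (c : Cf D) (T : Ix → Ix → Fld D) (l : Fn → Completion D) : Prop :=
  ∃ S : Submodule ℂ (Completion D),
    (∀ m n f, IsTest f → ((T m n f c.Q.vac : D) : Completion D) ∈ S) ∧
    (∀ f, IsTest f → l f ∈ S) ∧ ∀ ξ ∈ S, ∀ w, Tendsto (fun r : ℝ =>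
      inner ℂ ξ (Ue c.Q (Real.sqrt (r * 1)) (TPD.Lsc r 1) 0 w)) (𝓝[>] 0)
        (𝓝 (inner ℂ ξ c.Om * inner ℂ c.Om w))

/-- **the analytic core**: the extension exists, with mixing -/
def Core (c : Cf D) (T : Ix → Ix → Fld D) : Prop :=
  ∃ x : Ctx D, x.toCf = c ∧ x.T = T ∧ FIN x ∧ MX c T x.l

theorem imp_mem {R : Theory D'} {S : Ix → Ix → Fld D'} {L : Fld D'} {H : Type*}
    [NormedAddCommGroup H] [NormedSpace ℂ H] (j : D' →ₗ[ℂ] H) (Z : Submodule ℂ H)
    (z2 : ∀ m n f, IsTest f → j (S m n f R.vac) ∈ Z) (z1 : ∀ f, IsTest f → j (L f R.vac) ∈ Z)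
    {F : Ix → Ix → V → ℝ} (hF : ∀ m n, Tst (F m n)) : j (smt (improve S L) F R.vac) ∈ Z := by
  simp only [smt, improve, map_sum, map_add, map_sub, map_smul]
  refine Z.sum_mem fun m _ => Z.sum_mem fun n _ => ?_
  have hf := (hF m n).isTest
  exact Z.sub_mem (Z.add_mem (z2 m n _ hf) (Z.smul_mem _ (z1 _ (Ap.test_pd _ (Ap.test_pd _ hf)))))
    (Z.smul_mem _ (Z.sum_mem fun k _ => Z.smul_mem _ (z1 _ (Ap.test_pd _ (Ap.test_pd _ hf)))))


theorem ug_sur (c : Cf D) {s : ℝ} {L : Ix → V} (hs : 0 < s) (hL : IsLor L) (a : V)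
    (z : Completion D) : ∃ y, P.Ue c.Q s L a y = z :=
  ⟨_, (Ug_apply _ hs hL _ _).symm.trans (DFunLike.congr_fun (SGx.uni0 c ⟨s, L, a, hs, hL⟩).1.2 z)⟩

end

end Vale.Agent.N352.EP.Mn
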