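import Vale.Agent.N352.EP.Pot
import Vale.Agent.N352.EP.Main
import Vale.Agent.N352.SlA
import Vale.Agent.N352.E.Loc
import Vale.Agent.N352.U.Ft
import Vale.Agent.P352R.Gl2

/-!
# N352, block EP: block S for degenerate vacua
-/

set_option linter.all false

open MeasureTheory Filter Topology
open scoped SchwartzMap ComplexConjugate ContDiff

namespace Vale.Agent.N352.EP

open Vale.Agent.P352 Vale.Agent.P352.GF Vale.Agent.P352.BW Vale.Agent.P352.H246
open Vale.Agent.P352.H496 Vale.Agent.P352.H755 Vale.Agent.P352.H15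
open Vale.Agent.P352.SubConf (IsAdj)
open Vale.Agent.P352X Vale.Agent.P352X.EB Vale.Agent.P352L
open Vale.Agent.P352X.EG (Cg)
open UniformSpace (Completion)
open ContinuousLinearMap (adjoint)
open P352L.Gd (un)
open Nt (Nd mem_Nd)
open Fss hiding U_dil u_inv inv_u u_adj dl_herm dl_cov dl_cons dl_charge dl_pch
open StA Fss.G P352R
open Finset (range)

noncomputable section

universe u

section gen

variable {D : Type*} [NormedAddCommGroup D] [InnerProductSpace ℂ D] {Q : Theory D} {n0 : ℕ}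
  {T : Ix → Ix → Fld D}

/-- scaling laws in dimension four -/
def Lw (Q : Theory D) (n0 : ℕ) (B : Fld D) (C : ℕ → Fld D) : Prop := (∀ i, C i ∈ Sp Q.fld) ∧
  ∀ (r : ℝ) f v, 0 < r → IsTest f → B f (Q.U r GF.one 0 v) = ∑ i ∈ range (n0 + 1),
    (Real.log r : ℂ) ^ i • Q.U r GF.one 0 (C i (fun x => f (sim r GF.one 0 x)) v)

theorem Lw.scl {B : Fld D} {C : ℕ → Fld D} (h : Lw Q n0 B C) (hb : ∀ B, Q.fld B → Q.bose B) :
    Scl (hull Q) B ({4} ×ˢ range (n0 + 1)) fun p => C p.2 :=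
  ⟨fun p => ⟨h.1 _, fun _ => Submodule.span_mono hb (h.1 _)⟩, fun r f v hr hf => by
    rw [Finset.sum_product, Finset.sum_singleton]
    simp only [sub_self, Complex.cpow_zero, one_mul]
    exact h.2 r f v hr hf⟩

theorem fsl_of (h : ∀ B, Q.fld B → ∃ C, Lw Q n0 B C) (hb : ∀ B, Q.fld B → Q.bose B) :
    FSL (hull Q) := fun B hB => by
  have o := H496.isLor_one
  obtain ⟨C, k⟩ : ∃ C, Lw Q n0 B C := sp_ind (p := fun B => ∃ C, Lw Q n0 B C) hB h
    ⟨0, fun _ => zero_mem _, fun r f v hr _ => by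
      simp [show Q.U r GF.one 0 0 = 0 from (u Q r hr).map_zero]⟩
    fun B B' z ⟨C, a, b⟩ ⟨C', a', b'⟩ => ⟨C + z • C',
      fun i => add_mem (a i) (Submodule.smul_mem _ _ (a' i)), fun r f v hr hf => by
        simp only [b r f v hr hf, b' r f v hr hf, Pi.add_apply, Pi.smul_apply, U_add hr o,
          U_smul hr o, smul_add, Finset.sum_add_distrib, Finset.smul_sum, smul_comm z]⟩
  exact ⟨_, _, k.scl hb⟩

/-- a stress tensor vanishes if the translations and the Lorentz group act trivially -/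
theorem triv2I (hT : Stress0 Q T) (h : ∀ a v, Q.U 1 GF.one a v = v) (hI : U.IVac Q) {f : Fn}
    (hf : IsTest f) (v : D) : T 0 1 f v = 0 := by
  have hb := fun m n => Q.bose_fld _ (hT.bose m n)
  have hU : ∀ L, IsLor L → ∀ v, Q.U 1 L 0 v = v := fun L hL v => Completion.coe_injective D (by
    rw [← ue_coe one_pos hL]
    exact hI v (fun a => (ue_coe one_pos H496.isLor_one _ _).trans (by rw [h])) 1 L one_pos hL)
  have d : ∀ m v, HasDerivAt (fun t : ℝ => U1 Q (t • eb m) v) 0 0 := fun m v => by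
    simpa only [U1, h] using hasDerivAt_const (0 : ℝ) v
  have h1 : ∀ k l n g, In Set.univ g → T k l (pd n g) v = 0 := fun k l n g hg => by
    have := EG.Wb.Dv_fld (fun m v => (Dv_eq (d m v)).symm ▸ d m v) n (hb k l) hg.1 v
    rw [Dv_eq (d _ _), Dv_eq (d _ _), show T k l g 0 = 0 from (Fss.fl (hb k l) hg.1).map_zero,
      add_zero] at this
    exact neg_eq_zero.1 this.symm
  let b : ContDiffBump (0 : V) := ⟨1, 2, one_pos, one_lt_two⟩
  have hρ : In Set.univ fun x => (b x : ℂ) :=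
    Ap.in_cx ⟨b.contDiff, b.hasCompactSupport⟩ (Set.subset_univ _)
  have i0 : ∫ x, (b x : ℂ) ≠ 0 := by
    rw [integral_complex_ofReal]
    exact Complex.ofReal_ne_zero.2 b.integral_pos.ne'
  have h2 : ∀ k l g, In Set.univ g → (∫ x, (b x : ℂ)) • T k l g v =
      (∫ x, g x) • T k l (fun x => b x) v := fun k l g hg => by
    obtain ⟨w, hw, e⟩ := EB.NA.Mom.div convex_univ hg hρ
    have := lin2 (hb k l) hρ.1 hg.1 (∫ x, g x) (-∫ x, (b x : ℂ)) v
    simp only [neg_mul, ← sub_eq_add_neg, e, Fin.sum_univ_four, neg_smul] at this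
    have t := fun i => Ap.test_pd i (hw i).1
    have a := fun f g hf hg => Q.lin (T k l) f g 1 v (hb k l) hf hg
    simp only [one_mul, one_smul] at a
    rw [a _ _ (Ap.sw_add (Ap.sw_add (t 0) (t 1)) (t 2)) (t 3), a _ _ (Ap.sw_add (t 0) (t 1)) (t 2),
      a _ _ (t 0) (t 1)] at this
    simp only [h1 _ _ _ _ (hw _), add_zero] at this
    exact (sub_eq_zero.1 this.symm).symm
  have h3 : ∀ e, T 0 0 (fun x => b x) v = ∑ k, ∑ l, (bo 1 e k 0 * bo 1 e l 0 : ℂ) •
      T k l (fun x => b x) v := fun e => by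
    have hL := lor_bo one_ne_zero e
    have := hT.cov 0 0 _ 0 _ v hL hρ.1
    simp only [hU _ hL] at this
    rw [this]
    refine Finset.sum_congr rfl fun k _ => Finset.sum_congr rfl fun l _ => congrArg _ ?_
    refine smul_right_injective D i0 ((h2 k l _ (Ap.in_sim one_pos hL 0 hρ)).trans ?_)
    rw [(sc_sim one_pos hL 0).integral fun x => (b x : ℂ)]
    simp
  have h4 : T 0 1 (fun x => b x) v = 0 := alg1 (t := fun k l => T k l (fun x => b x) v)
    (fun k l => hT.symm k l _ v hρ.1) 0 0 (.inl rfl) h3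
  refine ext_in (u := fun f => T 0 1 f v) (Q.cont _ v (hb 0 1)) (fun g hg => ?_) hf
  exact (smul_eq_zero.1 ((h2 0 1 g hg).trans (by rw [h4, smul_zero]))).resolve_left i0

theorem nl_ofI (hT : Stress0 Q T) {F : Ix → Ix → Finset (ℂ × ℕ)} {C : Ix → Ix → ℂ × ℕ → Fld D}
    (hC : ∀ m n, Scl Q (T m n) (F m n) (C m n))
    (h0 : ∀ m n, (∀ f v, IsTest f → TT (F m n) (C m n) 0 f v = 0) →
      ∀ f v, IsTest f → T 0 1 f v = 0)
    (h : ∀ t m n f v, IsTest f → TT (F m n) (C m n) t f v = TT (F m n) (C m n) 0 f v) :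
    NoLog Q T := by
  classical
  refine U.nl_of hT hC (fun m n p hp h4 hj f v hf => ?_) fun m n h4 => h0 m n fun f v hf => ?_
  · obtain ⟨S, c, hc⟩ := CL.vg (insert (4, 0) (F m n)) p
    have c0 : ∑ t ∈ S, c t = 0 := by
      simpa [CL.pg, CL.ph, Prod.ext_iff, hj.symm] using hc _ (Finset.mem_insert_self _ _)
    have e : ∑ t ∈ S, c t • TT (F m n) (C m n) t f v = C m n p f v := by
      simp only [tt_apply, Finset.smul_sum, smul_smul]
      rw [Finset.sum_comm, Finset.sum_eq_single_of_mem p hp fun q hq ne => ?_]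
      all_goals rw [← Finset.sum_smul]
      · have := hc p (Finset.mem_insert_of_mem hp)
        simp only [CL.pg, CL.ph, h4, sub_self, mul_zero, Complex.exp_zero, one_mul, if_true,
          ← mul_pow, mul_neg_one] at this
        simp only [cf, h4, if_true, this, one_smul]
      · by_cases q4 : q.1 = 4
        · have := hc q (Finset.mem_insert_of_mem hq)
          simp only [CL.pg, CL.ph, q4, sub_self, mul_zero, Complex.exp_zero, one_mul, if_neg ne,
            ← mul_pow, mul_neg_one] at this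
          simp only [cf, q4, if_true, this, zero_smul]
        · simp [cf, q4]
    rw [← e]
    simp only [h _ m n f v hf, ← Finset.sum_smul, c0, zero_smul]
  · rw [tt_apply]
    refine Finset.sum_eq_zero fun p hp => ?_
    rw [show cf 0 p = 0 from ?_, zero_smul]
    rw [cf]
    split_ifs with e
    · rw [Complex.ofReal_zero, neg_zero, zero_pow fun e' =>
        h4 ((Prod.ext e e' : p = (4, 0)) ▸ hp)]
    · rfl

variable {c : Cf D}

/-- if one spatial translation is trivial then all translations are trivial -/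
theorem triv0I {i : Ix} (hi : i ≠ 0) (h : ∀ v, c.A (fun _ => bas i 1) v = 0) (a : V) (w : D) :
    c.Q.U 1 GF.one a w = w := by
  have R := Fsg.m1 c
  let G : Submodule ℝ V := ⟨⟨⟨{a | ∀ (t : ℝ) v, c.Q.U 1 GF.one (t • a) v = v},
    fun {a b} ha hb t v => by rw [smul_add, ← Uadd1, ha, hb]⟩,
    fun t v => by rw [smul_zero, U0]⟩, fun r a ha t v => by rw [smul_smul, ha]⟩
  have inv : ∀ L, IsLor L → ∀ a ∈ G, sim 1 L 0 a ∈ G := fun L hL a ha t v => by
    have hM := isLor_linv hL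
    have e1 := R 1 _ 0 1 _ (t • sim 1 L 0 a) v one_pos one_pos hM H496.isLor_one (.inr rfl)
    have e2 := R 1 _ (t • a) 1 _ 0 v one_pos one_pos H496.isLor_one hM (.inl rfl)
    rw [ha] at e2
    simp only [simL_smul, N86.c1_linv hL, sim_dil, zero_add, one_smul, smul_zero, add_zero] at e1 e2
    simp only [GF.one, N86.c1_bas] at e1 e2
    refine sub_eq_zero.1 (u_inj (Q := c.Q) hM ?_)
    rw [← ueI_apply one_pos hM, map_sub, ueI_apply, ueI_apply]
    exact sub_eq_zero.2 (e1.trans e2.symm)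
  have st : ∀ j ≠ 0, ∀ x ∈ G, GF.mdot (nb j) x = 1 / 2 → na j ∈ G := fun j hj x hx e => by
    have h1 := inv _ (lor_bo hj true) x hx
    have h2 := inv _ (lor_bo hj false) x hx
    rw [bo, sim_bst, e] at h1 h2
    convert G.smul_mem (4 / 3) (G.sub_mem (G.add_mem (G.smul_mem 2 h1) h2) (G.smul_mem 3 hx))
    simp only [if_true, Bool.false_eq_true, if_false]
    module
  have gi : bas i 1 ∈ G := fun r w => by
    have d : ∀ t : ℝ, HasDerivAt (fun e : ℝ => c.Q.U 1 GF.one (e • bas i 1) w) 0 t := fun t => by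
      have := c.hN.der (fun _ => 1) (fun _ => GF.one) (fun e => e • bas i 1) (fun _ => bas i 1)
        (c.Q.U 1 GF.one (t • bas i 1) w) rfl rfl (zero_smul _ _)
        (fun _ => ⟨one_pos, H496.isLor_one⟩) fun n z => by
          simpa only [sim_dil, Pi.add_apply, Pi.smul_apply, smul_eq_mul, one_mul] using
            (hasDerivAt_mul_const (x := (0 : ℝ)) (bas i 1 n)).add_const (z n)
      rw [h, smul_zero, ← sub_self t] at this
      simpa only [Uadd1, ← add_smul, sub_add_cancel] using this.comp_sub_const t t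
    have := is_const_of_deriv_eq_zero (fun t => (d t).differentiableAt) (fun t => (d t).deriv) r 0
    rwa [zero_smul, U0] at this
  have g0 : bas 0 1 ∈ G := by
    simpa [na] using G.sub_mem (st i hi _ gi (by
      fin_cases i <;> simp [nb, bas, H496.gm] at hi ⊢)) gi
  have g1 : ∀ j, bas j 1 ∈ G := fun j => by
    by_cases hj : j = 0
    · rwa [hj]
    · simpa [na] using G.sub_mem (st j hj _ g0 (by
        fin_cases j <;> simp [nb, bas, H496.gm] at hj ⊢)) g0
  have ha : a ∈ G := Ap.sum_bas a ▸ G.sum_mem fun m _ => G.smul_mem _ (g1 m)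
  simpa only [one_smul] using ha 1 w

theorem trivI (hT : Stress0 c.Q T) (hP : ND.PCh c.Q T c.A) {m n : Ix}
    (h0 : ∀ f v, IsTest f → T m n f v = 0) (a : V) (v : D) : c.Q.U 1 GF.one a v = v := by
  have hb := fun m n => c.Q.bose_fld _ (hT.bose m n)
  set i : Ix := if n = 0 then if m = 0 then 1 else m else n with ei
  have hi : i ≠ 0 := by
    rw [ei]
    split_ifs <;> simp [*]
  have h1 : ∀ g w, IsTest g → T o i g w = 0 := fun g w hg => by
    refine alg1 (t := fun k l => T k l g w) (fun k l => hT.symm k l g w hg) m n (.inr (h0 g w hg))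
      (y := 0) fun e => ?_
    have hL : IsLor (bo (if m = 0 then 1 else m) e) := lor_bo (by split_ifs <;> simp [*]) e
    have t1 := Ap.test_sim one_pos (isLor_linv hL) 0 hg
    have := hT.cov m n _ 0 _ w hL t1
    simp only [h0 _ _ t1, N86.c1_linv hL] at this
    refine (u_inj (Q := c.Q) hL (Eq.trans ?_ this.symm)).symm
    rw [← ueI_apply one_pos hL]
    simp only [map_sum, map_smul, ueI_apply]
  refine triv0I hi (gen_zero (const_sim _) fun B f v hB hf => sub_eq_zero.1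
    (ext_inner_left ℂ fun w => ?_)) a v
  refine tendsto_nhds_unique (hP _ _ B f v w isCutoff_cutF (const_sim _) hB hf.1 hf.2.1)
    (tendsto_const_nhds.congr' ((isTest_cutoff isCutoff_cutF).mono fun r hr => ?_))
  have : ∀ z, ND.cur T (fun _ => bas i 1) (cutF r) z = 0 := fun z =>
    Finset.sum_eq_zero fun k _ => by
      rw [lin1 (hb o k) hr]
      by_cases e : k = i
      · rw [e, h1 _ _ hr, smul_zero]
      · simp [bas, e]
  simp only [this, ← Fss.fl_apply hB hf.1, map_zero, sub_zero]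

section sec

variable {TT : ℝ → Ix → Ix → Fld D} {E : Submodule ℂ D} {q : Theory E} {t : ℝ × Ix × Ix → Fld E}
  {a : (V → V) → E → E} {j : Completion E →L[ℂ] Completion D} (s : Sec c (un TT) E q t a j)
  {N : Set V → VonNeumannAlgebra (Completion E)}
include s

theorem sec_bo (B : Fld E) (hB : q.fld B) : q.bose B := by
  obtain ⟨i, rfl⟩ := s.fld B hB
  exact s.bose i

theorem sec_lng (hN : LNm q a N) : LNg (hull q) id a 1 N :=
  have h := StA.lnm hN
  ⟨Gl2.gr h.toRep (fun _ hB => Submodule.span_mono (sec_bo s) hB) (zero_mem _), rfl, h.add, h.der,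
    fun _ => rfl, h.fld, h.mono, h.cov, fun O X x => by simpa using x, fun a b X p q r x => by
      have := h.loc a b X p q r x
      rw [one_mul, mul_one, sub_self, zero_mul]
      exact ⟨add_mem this this, zero_mem _⟩⟩

theorem sec_iv (hI : U.IVac c.Q) : U.IVac (hull q) := fun z hz r L hr hL => by
  have e : ∀ r L y z, 0 < r → IsLor L → j (Ue q r L y z) = Ue c.Q r L y (j z) :=
    fun r L y z hr hL => by rw [← Ug_apply _ hr hL, ← Ug_apply _ hr hL, s.U _ _ _ _ hr hL]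
  have := hI (j z) (fun y => by
    rw [← e _ _ _ _ one_pos H496.isLor_one]
    exact congrArg j (hz y)) r L hr hL
  rw [← e _ _ _ _ hr hL] at this
  exact (s.iso _).symm.trans ((congrArg _ this).trans (s.iso z))

variable (hF : Fam c.Q TT n0)
include hF

open Gl2 in
theorem sec_mfa : MfAll (hull q) := P352H.mfa fun B hB => by
  obtain ⟨⟨σ, m, n⟩, rfl⟩ := s.fld B hB
  refine ⟨1, fun _ => t (σ, m, n), fun _ => ⟨rk 2, fun b => t (σ, ix 2 b 0, ix 2 b 1),
    (ix 2).symm ![m, n], ⟨fun _ => q.bose_fld _ (s.bose _), fun b L f v hL hf => ?_⟩, by simp⟩,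
    fun _ _ _ => by simp⟩
  beta_reduce
  rw [((sec_fam s hF).st σ).cov _ _ L 0 f v hL hf, ← Fintype.sum_prod_type']
  refine Eq.trans ?_ ((ix 2).sum_comp fun ν => ((∏ i, L (ν i) (ix 2 b i) : ℝ) : ℂ) •
    q.U 1 L 0 (t (σ, ν 0, ν 1) (fun x => f (sim 1 L 0 x)) v)).symm
  refine (Fintype.sum_equiv (finTwoArrowEquiv Ix) _ _ fun ν => ?_).symm
  simp [Fin.prod_univ_two]

open Polynomial in
theorem sec_law (σ : ℝ) (m n : Ix) : ∃ C, Lw q n0 (t (σ, m, n)) C ∧ ∀ (x : ℝ) f v, IsTest f →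
    t (σ - x, m, n) f v = ∑ i ∈ range (n0 + 1), (x : ℂ) ^ i • C i f v := by
  let K : ℕ → Fld E := fun i => ∑ k ∈ range (n0 + 1),
    ((((lagP n0 k).comp (C σ - X)).coeff i : ℝ) : ℂ) • t (k, m, n)
  have e : ∀ (x : ℝ) f v, IsTest f →
      t (σ - x, m, n) f v = ∑ i ∈ range (n0 + 1), (x : ℂ) ^ i • K i f v := fun x f v hf => by
    rw [((sec_fam s hF).pol m n f v hf).lag_eq (σ - x)]
    simp only [K, Finset.sum_apply, Pi.smul_apply, Finset.smul_sum, smul_smul]
    rw [Finset.sum_comm]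
    refine Finset.sum_congr rfl fun k hk => ?_
    have d : ((lagP n0 k).comp (C σ - X)).natDegree < n0 + 1 :=
      Nat.lt_succ_of_le (natDegree_comp_le.trans (by
        rw [← neg_sub, natDegree_neg, natDegree_X_sub_C, mul_one]
        exact lagP_deg hk))
    have := eval_eq_sum_range' d x
    rw [eval_comp, eval_sub, eval_C, eval_X] at this
    rw [lag, this, ← Finset.sum_smul, ← Complex.coe_smul]
    push_cast
    simp only [mul_comm]
  refine ⟨K, ⟨fun i => sum_mem fun k _ => Submodule.smul_mem _ _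
    (sp_of (q.bose_fld _ (s.bose _))), fun r f v hr hf => ?_⟩, e⟩
  have k := sec_cov s hF (σ - Real.log r) m n 0 v hr H496.isLor_one hf
  rw [sub_add_cancel] at k
  simp [GF.one, bas, apply_ite Complex.ofReal, ite_smul] at k
  refine k.trans ?_
  refine (congrArg (u q r hr) (e _ _ v (Ap.test_sim hr H496.isLor_one 0 hf))).trans ?_
  simp only [map_sum, map_smul]
  rfl

theorem sec_fsl : FSL (hull q) := fsl_of (fun B hB => by
  obtain ⟨⟨σ, m, n⟩, rfl⟩ := s.fld B hB
  exact (sec_law s hF σ m n).imp fun _ h => h.1) (sec_bo s)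

theorem sec_st0 (τ : ℝ) : Stress0 (hull q) fun m n => t (τ, m, n) :=
  have h := (sec_fam s hF).st τ
  ⟨fun m n => sp_of (h.bose m n), h.symm, h.herm, h.cov, h.conserved,
    Tn.hull_chg (fun m n => q.bose_fld _ (h.bose m n)) h.charge⟩

theorem sec_pc (rp : Rep q a) {τ : ℝ} (hP : ND.PCh c.Q (TT τ) c.A) :
    ND.PCh (hull q) (fun m n => t (τ, m, n)) a :=
  P352H.pch rp (fun _ _ => q.bose_fld _ (s.bose _)) (sec_pch s hF rp hP)

/-- **the generators in the sector** -/
theorem ex_rep : ∃ a', Rep q a' := by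
  have g : Gr (hull q) id :=
    { inv := fun _ => rfl
      herm := fun _ _ => rfl
      bose := fun _ _ _ _ _ => rfl
      split := fun B k => ⟨B, 0, Submodule.span_mono (sec_bo s) k, ⟨zero_mem _, by simp⟩, by simp⟩
      anti := fun B C f g v a b c d _ => by
        have z {B : Fld E} (a : Fer (hull q) id B) {f} (c : IsTest f) (v) : B f v = 0 := by
          have : (2 : ℂ) • B f v = 0 := by
            rw [two_smul]; exact add_eq_zero_iff_eq_neg.2 (a.2 f v c)
          simpa using this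
        rw [z a c, z b d, neg_zero]
      GU := fun _ _ _ _ _ _ => rfl
      mul := fun r L a r' L' a' b c d e => .inl fun v => s.mul r L a r' L' a' v b c d e }
  obtain ⟨A, x, y⟩ := P352R.Tg.gen (Br.gr.2 g) (fun S h0 h1 => s.cy S h0 fun i f v hf hv =>
    h1 _ f v (sp_of (q.bose_fld _ (s.bose i))) hf hv) (Br.mfa.2 (sec_mfa s hF)) (sec_fsl s hF)
  exact ⟨A, s.mul, x, y⟩

/-- without logarithms the family is constant -/
theorem sec_const (hN : LNm q a N) (h : NoLog (hull q) fun m n => t (0, m, n)) (x : ℝ) (m n : Ix)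
    {f : Fn} (hf : IsTest f) (v : E) : t (x, m, n) f v = t (0, m, n) f v := by
  classical
  obtain ⟨C, h1, h2⟩ := sec_law s hF 0 m n
  obtain ⟨F', C', a1, b1⟩ := h m n
  have R := EG.Fsg.m1 ⟨_, _, _, _, _, sec_lng s hN⟩
  have z : ∀ i ∈ range (n0 + 1), i ≠ 0 → C i f v = 0 := fun i hi ne => by
    obtain ⟨S, κ, hκ⟩ := CL.vg ({4} ×ˢ range (n0 + 1) ∪ F') (4, i)
    have e2 := CL.sfm0 a1 R (fun x hx => hκ x (Finset.mem_union_right _ hx)) hf v
    rw [if_neg fun h => ne ((b1 _).1 h)] at e2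
    exact (CL.sfm (h1.scl (sec_bo s)) R (e := (4, i)) (by simpa using hi)
      (fun x hx => hκ x (Finset.mem_union_left _ hx)) hf v).trans e2.symm
  have e : ∀ y : ℝ, t (0 - y, m, n) f v = C 0 f v := fun y => by
    rw [h2 y f v hf, Finset.sum_eq_single_of_mem 0 (by simp) fun i hi ne => by
      rw [z i hi ne, smul_zero], pow_zero, one_smul]
  have e1 := e (-x)
  have e2 := e 0
  rw [zero_sub, neg_neg] at e1
  rw [sub_zero] at e2
  exact e1.trans e2.symm

end sec

/-- invariant vectors are orthogonal to covariant vectors -/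
theorem ort (k : Cg D) (hI : U.IVac k.Q) {p : Fn → Completion D}
    (lin : ∀ (f g : Fn) (z : ℂ), IsTest f → IsTest g → p (fun x => f x + z * g x) = p f + z • p g)
    (cont : Continuous fun g => p (ev g)) {κ : ℂ} (hκ : κ ≠ 16)
    (h1 : ∀ y f, IsTest f → p f = Ug k.Q 1 GF.one y (p fun x => f (sim 1 GF.one y x)))
    (h2 : ∀ f, IsTest f → p f = κ • Ug k.Q 2 GF.one 0 (p fun x => f (sim 2 GF.one 0 x)))
    {v : Completion D} (hv : ∀ y, Ut k.Q y v = v) {f : Fn} (hf : IsTest f) :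
    inner ℂ (p f) v = 0 := by
  have o := H496.isLor_one
  obtain ⟨g, rfl⟩ := hf
  have v2 : Ug k.Q 2 GF.one 0 v = v := (Ug_apply _ two_pos o _ _).trans
    (hI v (fun y => (Ug_apply _ one_pos o _ _).symm.trans (hv y)) 2 _ two_pos o)
  refine inner_eq_zero_symm.1 (Grp.inv_zero (innerSL ℂ v ∘L Grp.toC p lin cont) κ hκ
    (fun y g => ?_) (fun g => ?_) g)
  · show inner ℂ v (p _) = inner ℂ v (p _)
    rw [h1 y _ ⟨_, rfl⟩, Grp.tsl_sim, ← Grp.ug_inner (Q := k.Q) one_pos o y v (p (ev g)),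
      show Ug k.Q 1 GF.one y v = v from hv y]
  · show inner ℂ v (p _) = κ * inner ℂ v (p _)
    rw [h2 _ ⟨g, rfl⟩, inner_smul_right, show (fun x => ev g (sim 2 GF.one 0 x)) =
      ev (Grp.simS two_pos o 0 g) from (funext (Grp.simS_apply _ _ _ g)).symm,
      ← Grp.ug_inner (Q := k.Q) two_pos o 0 v (p (ev _)), v2]

end gen

variable {D : Type u} [NormedAddCommGroup D] [InnerProductSpace ℂ D]

section cg

variable (R : U.Rows D) (k : Cg D) (hI : U.IVac k.Q) (hM : MfAll k.Q) (hF : FSL k.Q)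
  {T : Ix → Ix → Fld D} (hT : k.Q.IsStress T) (hP : ND.PCh k.Q T k.A)
include R hI hM hF hT hP

theorem ex_potI : ∃ l, IsPot k.Q T l := by
  obtain ⟨N, h, Z, z, -⟩ := R.ctr k hI
  obtain ⟨g, e1, rfl, -⟩ := R.gxi ⟨_, _, _, _, N, h⟩ Z hI hM hF z (R.pack _ Z z hI hM hF) T hT hP
  obtain ⟨c', T, SK, l, bt, hT', hl⟩ := g
  obtain rfl : c' = _ := e1
  exact ⟨l, hl⟩

end cg

variable (R : ∀ (E : Type u) [NormedAddCommGroup E] [InnerProductSpace ℂ E], U.Rows E) {c : Cf D}
  {T : Ix → Ix → Fld D}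
include R

/-- **there are no logarithms in dimension four** -/
theorem nologI (hT : Stress0 c.Q T) (hA : ND.PCh c.Q T c.A) (hF : Cw.Cd c.Q)
    (hS : ∀ m n, ∃ F C, Scl c.Q (T m n) F C) (hI : U.IVac c.Q)
    (hE : ∀ m n, EB1 c.Q (T m n)) (sl : SL1 c.Q T) : NoLog c.Q T := by
  choose F C hC using hS
  have R0 := Fsg.m1 c
  obtain ⟨n0, h1, h2⟩ := Cw.fam R0 (Fsg.cj0 c) hF hT hA hC
  have t := e0_thm c.hl
  have hf := hf_of (c := c.hl) h1
  have w := wc_thm t (fun p => by
    simpa only [EB1, Cf.hl, P352L.Gd.en_hull] using eb_tt hC hE p) hf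
  obtain ⟨a, rp⟩ := ex_rep (Hy.sec ⟨t, hf, w.pj _⟩ fun _ v => v) h1
  have s := Hy.sec ⟨t, hf, w.pj _⟩ a
  have r := (rl_tt hT sl hF hC).slf (c' := c.hl) rfl
  obtain ⟨N', hN', -⟩ := nb_thm t hf r (EG.lift_row _ _) (EG.bic_row _) w s rp
  have k := sec_const s h1 hN' ((R _).nolog ⟨_, _, _, _, _, sec_lng s hN'⟩ (sec_iv s hI)
    (sec_mfa s h1) (sec_fsl s h1) (sec_st0 s h1 0) (sec_pc s h1 rp (h2 0)))
  refine nl_ofI hT hC (fun m n h f v hf => triv2I hT (trivI (c := c.hl) (h1.st 0) (h2 0) h) hI hf v)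
    fun x m n f v hf' => ?_
  refine sub_eq_zero.1 (ext_in (u := fun f => un _ (x, m, n) f v - un _ (0, m, n) f v)
    ((c.hl.Q.cont _ v (hf.fld _)).sub (c.hl.Q.cont _ v (hf.fld _))) (fun g hg => sub_eq_zero.2
      (sep t w r (fun g hg => ?_) hg v)) hf')
  rw [← s.vac, ← s.eq _ _ _ hg, ← s.eq _ _ _ hg]
  exact congrArg _ (k x m n hg _)

/-- **the potential** -/
theorem potI (hT : c.Q.IsStress T) (hA : ND.PCh c.Q T c.A) (hI : U.IVac c.Q)
    (hE : ∀ m n, EB1 c.Q (T m n)) (r : Rl c (un fun _ => T)) :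
    ∃ N l, AW c N ∧ Pot c T N l := by
  have h1 := fam_of hT
  have t := e0_thm c
  have hf := hf_of h1
  have eb : ∀ p, EB1 c.Q (un (fun _ => T) p) := fun p => hE _ _
  have w := wc_thm t eb hf
  obtain ⟨E, q, τ, a0, j, h0⟩ : ∃ E q τ a j, Sec c (un fun _ => T) E q τ a j :=
    ⟨_, _, _, fun _ v => v, _, Hy.sec ⟨t, hf, w.pj _⟩ _⟩
  obtain ⟨a, rp⟩ := ex_rep h0 h1
  have h := h0.ch a
  obtain ⟨N, hN, hL⟩ := nb_thm t hf (r.slf rfl) (EG.lift_row _ _) (EG.bic_row _) w h rp
  let k : Cg E := ⟨_, _, _, _, _, sec_lng h hN⟩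
  have i1 : U.IVac k.Q := sec_iv h hI
  have sT := sec_st h hT
  obtain ⟨l, hl⟩ := ex_potI (R E) k i1 (sec_mfa h h1) (sec_fsl h h1) (P352H.str sT) (sec_pc h h1 rp hA)
  obtain ⟨n, st⟩ := N352.E.tmlI (R E) k rfl (StA.rep rp) (tfg (sec_tfg h h1)) i1 (sec_mfa h h1)
    (sec_fsl h h1) (Gd.ebd (h.eb rp eb)) (P352H.str sT) (sec_pc h h1 rp hA) hl
  have hi := sec_in h
  have hj : ∀ z, ‖j z‖ = ‖z‖ := fun z => by
    rw [@norm_eq_sqrt_re_inner ℂ, hi]
    exact (norm_eq_sqrt_re_inner (𝕜 := ℂ) z).symm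
  have hv := sec_om h
  have o := H496.isLor_one
  let K : Submodule ℂ (Completion E) := (Submodule.span ℂ {v | ∀ y, Ut k.Q y v = v})ᗮ
  have hK : ∀ η, η ∈ K ↔ ∀ v, (∀ y, Ut k.Q y v = v) → inner ℂ η v = 0 := fun η =>
    ⟨fun a v hv => Submodule.inner_left_of_mem_orthogonal (Submodule.subset_span (s := {v | ∀ y, Ut k.Q y v = v}) hv) a,
      fun a => (Submodule.mem_orthogonal' _ _).2 fun v hv =>
        (Submodule.span_le (p := LinearMap.ker (innerSL ℂ η).toLinearMap)).2 a hv⟩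
  refine ⟨_, fun f => j (l f), aw_thm w r, sec_pot h ⟨hl.lin, hl.cont, hl.trace, hl.cov⟩ rp,
    ⟨n, fun f hf => ?_⟩, K.map j.toLinearMap,
    fun m n f hf => ⟨_, (hK _).2 fun v hv => ?_, (sec_T h m n hf).symm⟩,
    fun f hf => ⟨_, (hK _).2 fun v hv => ?_, rfl⟩, ?_⟩
  · obtain ⟨C, x, p1, p2, p3⟩ := st f hf
    choose y y1 y2 y3 y4 using fun i => hL va vb Grp.na Grp.nb Grp.nab _ (p1 i).1
    refine ⟨C, y, fun i => ⟨y1 i, (y2 i).trans (p1 i).2⟩, ?_, ?_⟩
    · simp only [← hv, y3, ← map_sub, hj]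
      exact p2
    · simp only [← hv, y4, ← map_sub, hj]
      exact p3
  · have b := q.bose_fld _ (sT.bose m n)
    have e : ∀ s y f, 0 < s → IsTest f → ((τ (0, m, n) f q.vac : E) : Completion E) =
        Ug k.Q s GF.one y (τ (0, m, n) (fun x => f (sim s GF.one y x)) q.vac : E) :=
      fun s y f hs hf => by
        have := sT.cov m n s GF.one y f q.vac hs o hf
        rw [q.U_vac s _ y hs o] at this
        simp [GF.one, bas, apply_ite Complex.ofReal, ite_smul] at this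
        exact (congrArg _ this).trans (Grp.coe (Q := k.Q) hs o y _).symm
    exact ort k i1 (p := fun f => ((τ (0, m, n) f q.vac : E) : Completion E)) (κ := 1)
      (fun f g z a b' => by rw [q.lin _ f g z _ b a b', Completion.coe_add, Completion.coe_smul])
      ((Completion.continuous_coe _).comp (q.cont _ _ b)) (by norm_num)
      (fun y f => e 1 y f one_pos) (fun f a => (e 2 0 f two_pos a).trans (one_smul _ _).symm) hv hf
  · refine ort k i1 (κ := 4) hl.lin hl.cont (by norm_num) (fun y f a => ?_) (fun f a => ?_) hv hf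
    · rw [G.Sq.pot hl y one_pos o a]
      simp
    · rw [G.Sq.pot hl 0 two_pos o a, ← Complex.coe_smul, smul_smul]
      norm_num
  · rintro _ ⟨η, hη, rfl⟩ w
    have h1 := (R E).mixi k i1 η (adjoint j w) ((hK η).1 hη)
    have z : inner ℂ (j η) c.Om = 0 := by
      rw [← hv, hi]
      exact (hK η).1 hη _ fun y => (G.ip_ut k y).vac
    refine (congrArg _ (congrArg _ ?_)).mp (h1.congr' (eventually_nhdsWithin_of_forall fun r hr => ?_))
    · exact ((congrArg (· * _) z).trans (zero_mul _)).symm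
    obtain ⟨p1, p2⟩ := CA.lsc_pos hr
    show inner ℂ η (Ue q _ _ _ _) = inner ℂ (j η) (Ue _ _ _ _ _)
    have u := Grp.uni rp (Real.sqrt (r * 1)) (TPD.Lsc r 1) 0
    rw [← Ug_apply _ p1 p2, ← Ug_apply _ p1 p2, ← star_inner, ContinuousLinearMap.adjoint_inner_right,
      ← ContinuousLinearMap.inner_map_map_of_mem_unitary (t.sg.uni ⟨⟨_, _, 0, p1, p2⟩, false⟩)]
    show inner ℂ (Ug c.Q _ _ _ _) _ = _
    rw [← h.U _ _ _ _ p1 p2]
    exact congrArg (fun z => inner ℂ (j z) _) (DFunLike.congr_fun u.2 η)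

theorem sector0I (hT : Stress0 c.Q T) (hA : ND.PCh c.Q T c.A) (hF : Cw.Cd c.Q)
    (hS : ∀ m n, ∃ F C, Scl c.Q (T m n) F C) (hI : U.IVac c.Q)
    (hE : ∀ m n, EB1 c.Q (T m n)) (sl : SL1 c.Q T) :
    ∃ (F : Ix → Ix → Finset (ℂ × ℕ)) (C : Ix → Ix → ℂ × ℕ → Fld D),
      (∀ m n, Scl c.Q (T m n) (F m n) (C m n)) ∧ (∀ m n j, ((4 : ℂ), j) ∈ F m n ↔ j = 0) ∧
      c.Q.IsStress (fun m n => C m n (4, 0)) ∧ ND.PCh c.Q (fun m n => C m n (4, 0)) c.A ∧
      (∀ m n, EB1 c.Q (C m n (4, 0))) ∧ Rl c (un fun _ m n => C m n (4, 0)) := by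
  choose F C hC h4 using nologI R hT hA hF hS hI hE sl
  have R := Fsg.m1 c
  obtain ⟨h1, h2⟩ := Cw.fss R (Fsg.cj0 c) hF hT hA hC h4
  have e : (fun τ m n => StA.TT (F m n) (C m n) τ) = fun _ m n => C m n (4, 0) := by
    funext τ m n
    rw [StA.TT, Finset.sum_eq_single_of_mem _ ((h4 m n 0).2 rfl) fun p hp ne => ?_]
    · simp [cf]
    · rw [cf, if_neg fun e => ne ?_, zero_smul]
      obtain ⟨d, j⟩ := p
      obtain rfl : d = 4 := e
      rw [(h4 m n j).1 hp]
  have r := rl_tt hT sl hF hC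
  have b := eb_tt hC hE
  rw [e] at r b
  exact ⟨F, C, hC, h4, h1, h2, fun m n => b (0, m, n), r⟩

/-- **block S** for degenerate vacua -/
theorem sectorI (hT : Stress0 c.Q T) (hA : ND.PCh c.Q T c.A) (hF : Cw.Cd c.Q)
    (hS : ∀ m n, ∃ F C, Scl c.Q (T m n) F C) (hI : U.IVac c.Q)
    (hE : ∀ m n, EB1 c.Q (T m n)) (sl : SL1 c.Q T) :
    ∃ (F : Ix → Ix → Finset (ℂ × ℕ)) (C : Ix → Ix → ℂ × ℕ → Fld D),
      (∀ m n, Scl c.Q (T m n) (F m n) (C m n)) ∧ (∀ m n j, ((4 : ℂ), j) ∈ F m n ↔ j = 0) ∧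
      c.Q.IsStress (fun m n => C m n (4, 0)) ∧ ND.PCh c.Q (fun m n => C m n (4, 0)) c.A ∧
      (∀ m n, EB1 c.Q (C m n (4, 0))) ∧
      ∃ N l, AW c N ∧ Pot c (fun m n => C m n (4, 0)) N l :=
  have ⟨F, C, a, b, d, e, f, g⟩ := sector0I R hT hA hF hS hI hE sl
  ⟨F, C, a, b, d, e, f, potI R d e hI f g⟩

end

end Vale.Agent.N352.EP
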