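import Vale.Agent.N352.EP.Cf
import Vale.Agent.P352L.Gd.Main
import Vale.Agent.P352R.Tg.Top
import Vale.Agent.P352R.Tg.Gen

/-!
# N352, block EP: the sector of a family of hermitian Bose fields and its net
-/

set_option linter.all false

open MeasureTheory Filter Topology
open scoped SchwartzMap ComplexConjugate ContDiff

namespace Vale.Agent.N352.EP

export Vale.Agent.P352X.EG.Lg (Wc Cs Nn)

open Vale.Agent.P352 Vale.Agent.P352.GF Vale.Agent.P352.BW Vale.Agent.P352.H246
open Vale.Agent.P352.H496 Vale.Agent.P352.H755 Vale.Agent.P352.H15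
open Vale.Agent.P352.SubConf (IsAdj)
open Vale.Agent.P352X Vale.Agent.P352X.EB
open UniformSpace (Completion)
open Complex (I)
open ContinuousLinearMap (adjoint)
open EG.Sct (ev_sch der_iso der_mem)
open EG.NBa (rd rd_in rd_star)
open EG (LIFT BIC)

noncomputable section

variable {D : Type*} [NormedAddCommGroup D] [InnerProductSpace ℂ D] {ι : Type*}

section defs

variable (c : Cf D) (T : ι → Fld D)

/-- a covariant family of hermitian Bose fields -/
structure HF : Prop where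
  bose : ∀ i, c.Q.bose (T i)
  herm : ∀ i, IsAdj (T i) (T i)
  cov : ∀ i s L a, 0 < s → IsLor L → ∃ (κ : Ix × Ix → ℝ) (b : Ix × Ix → ι), ∀ f v, IsTest f →
    T i f (c.Q.U s L a v) =
      ∑ p, (κ p : ℂ) • c.Q.U s L a (T (b p) (fun x => f (sim s L a x)) v)

/-- the polynomials in `T` applied to the vacuum -/
def S0 : Submodule ℂ D := sInf {S | c.Q.vac ∈ S ∧ ∀ i f v, IsTest f → v ∈ S → T i f v ∈ S}

/-- their closure -/
def HB : Submodule ℂ (Completion D) :=
  ((S0 c T).map (Completion.toComplL : D →L[ℂ] Completion D).toLinearMap).topologicalClosure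

instance : (HB c T).HasOrthogonalProjection :=
  haveI : CompleteSpace (HB c T) := (Submodule.isClosed_topologicalClosure _).completeSpace_coe
  inferInstance

/-- the projection on the sector -/
def Pj : Completion D →L[ℂ] Completion D := (HB c T).starProjection

/-- the properties of the weak commutant -/
structure WC0 : Prop where
  one : ∀ O, 1 ∈ Wc T O
  add : ∀ O, ∀ Y ∈ Wc T O, ∀ Y' ∈ Wc T O, Y + Y' ∈ Wc T O
  smul : ∀ O (s : ℂ), ∀ Y ∈ Wc T O, s • Y ∈ Wc T O
  star : ∀ O, ∀ Y ∈ Wc T O, star Y ∈ Wc T O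
  mul : ∀ O, IsOpen O → ∀ Y ∈ Wc T O, ∀ Y' ∈ Wc T O, Y * Y' ∈ Wc T O
  anti : ∀ O O', O ⊆ O' → ∀ Y ∈ Wc T O', Y ∈ Wc T O
  gam : ∀ O, c.Γ ∈ Wc T O
  pj : ∀ O, Pj c T ∈ Wc T O
  cov : ∀ (g : Sh c) O, ∀ Y ∈ Wc T O, Star.star (g.U c) * Y * g.U c ∈ Wc T (g.act ⁻¹' O)

end defs

variable {c : Cf D} {T : ι → Fld D}

theorem HF.fld (hT : HF c T) (i : ι) : c.Q.fld (T i) := c.Q.bose_fld _ (hT.bose i)

theorem herm' (hT : HF c T) (i : ι) {f : Fn} (hf : IsTest f) (v w : D) :
    inner ℂ ((T i (bar f) w : D) : Completion D) (v : Completion D) =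
      inner ℂ (w : Completion D) ((T i f v : D) : Completion D) := by
  rw [Completion.inner_coe, Completion.inner_coe, hT.herm i _ w v (isTest_bar hf), bar_bar]

theorem s0_T {i : ι} {f : Fn} (hf : IsTest f) {s : D} (hs : s ∈ S0 c T) : T i f s ∈ S0 c T :=
  Submodule.mem_sInf.2 fun S hS => hS.2 i f s hf (Submodule.mem_sInf.1 hs S hS)

theorem s0_U (t : E0 c) (hT : HF c T) (a : V) {s : D} (hs : s ∈ S0 c T) :
    c.Q.U 1 GF.one a s ∈ S0 c T := by
  have k := fun v => t.sg.coe 1 GF.one a v one_pos H496.isLor_one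
  let l : D →ₗ[ℂ] D :=
    { toFun := c.Q.U 1 GF.one a
      map_add' := fun v w => Completion.coe_injective D (by
        simp only [Completion.coe_add, ← k, map_add])
      map_smul' := fun z v => Completion.coe_injective D (by
        simp only [Completion.coe_smul, ← k, map_smul, RingHom.id_apply]) }
  refine Submodule.mem_sInf.1 hs ((S0 c T).comap l) ⟨?_, fun i f v hf hv => ?_⟩
  · show c.Q.U 1 GF.one a c.Q.vac ∈ S0 c T
    rw [c.Q.U_vac 1 _ a one_pos H496.isLor_one]
    exact Submodule.mem_sInf.2 fun S hS => hS.1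
  · have h1 := c.Q.transl (T i) a _ v (hT.fld i) (EG.WCp.test_tr hf (-a))
    have h2 : (fun x => f (sim 1 GF.one (-a) (sim 1 GF.one a x))) = f := by
      funext x; rw [HM.sim_tr, HM.sim_tr, add_neg_cancel_right]
    rw [h2] at h1
    show c.Q.U 1 GF.one a (T i f v) ∈ S0 c T
    rw [← h1]
    exact s0_T (EG.WCp.test_tr hf (-a)) hv

theorem pj_mem (u : Completion D) :
    Pj c T u ∈ closure ((fun s : D => (s : Completion D)) '' S0 c T) :=
  (HB c T).starProjection_apply_mem u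

theorem pj_fix {s : D} (hs : s ∈ S0 c T) (u : Completion D) :
    inner ℂ (s : Completion D) (Pj c T u) = inner ℂ (s : Completion D) u := by
  have : (s : Completion D) ∈ HB c T := subset_closure ⟨s, hs, rfl⟩
  rw [Pj, ← Submodule.inner_starProjection_left_eq_right,
    Submodule.starProjection_eq_self_iff.2 this]

theorem cov (t : E0 c) (hT : HF c T) (h : Sh c) (i : ι) : ∃ (κ : Ix × Ix → ℝ) (b : Ix × Ix → ι),
    ∀ f, IsTest f → ∀ v v' : D, (v : Completion D) = h.U c v' →
      ((T i f v : D) : Completion D) =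
        h.U c (∑ p, (κ p : ℂ) • ((T (b p) (h.pull f) v' : D) : Completion D)) := by
  obtain ⟨κ, b, hc⟩ := hT.cov i h.s h.L h.a h.hs h.hL
  refine ⟨κ, b, fun f hf v v' e => ?_⟩
  have k := fun v => t.sg.coe h.s h.L h.a v h.hs h.hL
  have h1 : ((T i f (c.Q.U h.s h.L h.a v') : D) : Completion D) = Ug c.Q h.s h.L h.a
      (∑ p, (κ p : ℂ) • ((T (b p) (h.pull f) v' : D) : Completion D)) := by
    rw [hc f v' hf]
    simp only [map_sum, map_smul, k]
    change Completion.toComplL (𝕜 := ℂ) _ = _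
    simp only [map_sum, map_smul]
    rfl
  unfold Sh.U at e ⊢
  cases he : h.e
  · rw [he, cond_false, k] at e
    rw [cond_false, ← h1, Completion.coe_injective D e]
  · rw [he, cond_true, ContinuousLinearMap.mul_apply, k, c.hN.ext] at e
    rw [cond_true, ContinuousLinearMap.mul_apply, ← h1, Completion.coe_injective D e, c.hN.ext,
      c.hN.bose _ _ _ (hT.bose i) hf]

theorem cont_tr {B : Fld D} (hB : c.Q.fld B) {f : Fn} (hf : IsTest f) (v : D) :
    Continuous fun a : V => ((B (fun x => f (sim 1 GF.one a x)) v : D) : Completion D) := by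
  obtain ⟨g, rfl⟩ := hf
  refine (Completion.continuous_coe D).comp
    (((c.Q.cont B v hB).comp ((continuous_shift g).comp continuous_neg)).congr fun a => ?_)
  refine congrArg (fun h => B h v) (funext fun x => ?_)
  rw [HM.sim_tr]
  exact congrArg g (sub_neg_eq_add x a)

open EG.WCp (in_tr tr0 of_cl test_tr) in
theorem wc_thm (t : E0 c) (eb : ∀ i, EB1 c.Q (T i)) (hT : HF c T) : WC0 c T := by
  have fl := hT.fld
  refine ⟨fun O i f hf v w => herm' hT i hf.1 v w, fun O Y hY Y' hY' i f hf v w => ?_,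
    fun O s Y hY i f hf v w => ?_, fun O Y hY i f hf v w => ?_,
    fun O hO Y hY Y' hY' i f hf v w => ?_,
    fun O O' h Y hY i f hf => hY i f ⟨hf.1, hf.2.1, hf.2.2.trans h⟩,
    fun O i f hf v w => ?_, fun O i f hf v w => ?_,
    fun g O Y hY i f hf v w => ?_⟩
  · simp only [ContinuousLinearMap.add_apply, inner_add_right, hY i f hf, hY' i f hf]
  · simp only [ContinuousLinearMap.smul_apply, inner_smul_right, hY i f hf]
  · have := hY i _ hf.bar w v
    rw [bar_bar] at this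
    rw [ContinuousLinearMap.star_eq_adjoint, ContinuousLinearMap.adjoint_inner_right,
      ContinuousLinearMap.adjoint_inner_right, ← inner_conj_symm, ← this, inner_conj_symm]
  · obtain ⟨ε, hε, h⟩ := in_tr hO hf
    have := gr1 t ⊤ (T i) (T i) f (Y' v)
      (fun a => Y' (T i (fun x => f (sim 1 GF.one a x)) v : D)) ε hε (eb i) (fl i)
      (hT.herm i) ⟨hf.1, hf.2.1, Set.subset_univ _⟩ (fun _ _ _ => trivial) (fun _ _ => trivial)
      (by simpa using Completion.denseRange_coe _) (Y'.continuous.comp (cont_tr (fl i) hf.1 v))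
      fun a ha => ⟨by simpa using Completion.denseRange_coe _, fun s _ => hY' i _ (h a ha) v s⟩
    simp only [tr0] at this
    exact of_cl (φ := innerSL ℂ ((T i (bar f) w : D) : Completion D) ∘L Y)
      (ψ := innerSL ℂ (w : Completion D) ∘L Y) this fun s => hY i f hf s w
  · rw [c.hN.ext, c.hN.ext, herm' hT i hf.1, c.hN.bose _ _ _ (hT.bose i) hf.1]
  · have := gr1 t (S0 c T) (T i) (T i) f (Pj c T v)
      (fun a => Pj c T (T i (fun x => f (sim 1 GF.one a x)) v : D)) 1 one_pos (eb i) (fl i)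
      (hT.herm i) ⟨hf.1, hf.2.1, Set.subset_univ _⟩ (fun a _ => s0_U t hT a)
      (fun _ => s0_T hf.1) (pj_mem _) ((Pj c T).continuous.comp (cont_tr (fl i) hf.1 v))
      fun a _ => ⟨pj_mem _, fun s hs => by
        rw [pj_fix hs, pj_fix (s0_T (isTest_bar (test_tr hf.1 a)) hs), herm' hT i (test_tr hf.1 a)]⟩
    simp only [tr0] at this
    exact of_cl (φ := innerSL ℂ ((T i (bar f) w : D) : Completion D))
      (ψ := innerSL ℂ (w : Completion D)) this fun s => herm' hT i hf.1 s w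
  · have u1 : ∀ z, g.inv.U c (g.U c z) = z := fun z => by
      rw [t.sg.U_inv, ← ContinuousLinearMap.mul_apply, (t.sg.uni g).1]; rfl
    have u2 : ∀ z, g.U c (g.inv.U c z) = z := fun z => by
      rw [t.sg.U_inv, ← ContinuousLinearMap.mul_apply, (t.sg.uni g).2]; rfl
    obtain ⟨v', hv⟩ := t.sg.sur g v
    obtain ⟨w', hw⟩ := t.sg.sur g w
    have hi : In O (g.inv.pull f) := by
      obtain ⟨h1, h2, h3⟩ := t.sg.inn g.inv _ f hf
      exact ⟨h1, h2, fun x hx => t.sg.act_inv g x ▸ h3 hx⟩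
    obtain ⟨κ, b, hc⟩ := cov t hT g.inv i
    have e1 := hc f hf.1 v v' (by rw [← hv, u1])
    have e2 := hc _ (isTest_bar hf.1) w w' (by rw [← hw, u1])
    simp only [ContinuousLinearMap.mul_apply, ContinuousLinearMap.star_eq_adjoint,
      ContinuousLinearMap.adjoint_inner_right]
    rw [e1, e2, u2, u2, hv, hw]
    simp only [sum_inner, inner_sum, map_sum, map_smul, inner_smul_left, inner_smul_right,
      Complex.conj_ofReal]
    exact Finset.sum_congr rfl fun p _ => congrArg _ (hY (b p) _ hi v' w')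

variable (c T) in
/-- the sector: a theory `q` of Bose fields `t` on `E`, embedded by `j` -/
structure Sec (E : Submodule ℂ D) (q : Theory E) (t : ι → Fld E) (a : (V → V) → E → E)
    (j : Completion E →L[ℂ] Completion D) : Prop where
  coe : ∀ v : E, j v = ((v : D) : Completion D)
  iso : ∀ z, ContinuousLinearMap.adjoint j (j z) = z
  pj : ∀ z, j (ContinuousLinearMap.adjoint j z) = Pj c T z
  vac : (q.vac : D) = c.Q.vac
  U : ∀ s L y z, 0 < s → IsLor L → j (Ug q s L y z) = Ug c.Q s L y (j z)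
  qU : ∀ s L y v, 0 < s → IsLor L → (q.U s L y v : D) = c.Q.U s L y v
  eq : ∀ i f v, IsTest f → (t i f v : D) = T i f v
  fld : ∀ B, q.fld B → ∃ i, B = t i
  bose : ∀ i, q.bose (t i)
  mul : ∀ s L a s' L' a' v, 0 < s → 0 < s' → IsLor L → IsLor L' →
    q.U s L a (q.U s' L' a' v) = q.U (s * s') (fun m => sim 1 L 0 (L' m)) (sim s L a a') v
  cy : ∀ S : Submodule ℂ E, q.vac ∈ S → (∀ i f v, IsTest f → v ∈ S → t i f v ∈ S) → S = ⊤
  cyc : ∀ S : Submodule ℂ E, q.vac ∈ S → (∀ i f v, IsTest f → v ∈ S → t i f v ∈ S) →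
    Dense (S : Set E)
  uv : UVac c.Q → UVac q
  gam : ∀ z, c.Γ (j z) = j z

/-! ## the domain -/

variable (c T) in
/-- the vectors of `D` in the sector -/
def ES : Submodule ℂ D := S0 c T

lemma S0_HB {v : D} (hv : v ∈ S0 c T) : (v : Completion D) ∈ HB c T :=
  Submodule.le_topologicalClosure _ (Submodule.mem_map_of_mem hv)

lemma S0_le {S : Submodule ℂ D} (h0 : c.Q.vac ∈ S)
    (h : ∀ i f v, IsTest f → v ∈ S → T i f v ∈ S) : S0 c T ≤ S := sInf_le ⟨h0, h⟩

lemma vac_S0 : c.Q.vac ∈ S0 c T := Submodule.mem_sInf.2 fun _ h => h.1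

lemma S0_EE : S0 c T ≤ ES c T := fun v hv => hv

lemma HB_ind {A : Set (Completion D)} (hA : IsClosed A)
    (h : ∀ v ∈ S0 c T, (v : Completion D) ∈ A) : ∀ z ∈ HB c T, z ∈ A := fun z hz =>
  closure_minimal (by rintro _ ⟨v, hv, rfl⟩; exact h v hv) hA hz

lemma HB_closed : IsClosed (HB c T : Set (Completion D)) := Submodule.isClosed_topologicalClosure _

/-- the hypotheses -/
structure Hy (c : Cf D) (T : ι → Fld D) : Prop where
  t : E0 c
  st : HF c T
  pj : Pj c T ∈ Wc T Set.univ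

variable (h : Hy c T)
include h

lemma Hy.Tm (i : ι) {f : Fn} (hf : IsTest f) {v : D} (hv : v ∈ ES c T) :
    T i f v ∈ ES c T := s0_T hf hv

lemma Hy.gam : ∀ z ∈ HB c T, c.Γ z = z := by
  let S : Submodule ℂ D :=
    { carrier := {v | c.G v = v}
      add_mem' := fun {a b} ha hb => by
        change c.G _ = _ at ha hb ⊢
        rw [h.t.bas.gadd, ha, hb]
      zero_mem' := by simpa using h.t.bas.gsmul 0 0
      smul_mem' := fun z a ha => by
        change c.G _ = _ at ha ⊢
        rw [h.t.bas.gsmul, ha] }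
  have h1 : S0 c T ≤ S := S0_le c.hN.vac fun i f v hf hv => by
    change c.G _ = _ at hv ⊢
    rw [← c.hN.bose _ f v (h.st.bose i) hf, hv]
  refine HB_ind (A := {z | c.Γ z = z}) (isClosed_eq c.Γ.continuous continuous_id) fun v hv => ?_
  change c.Γ _ = _
  rw [c.hN.ext, show c.G v = v from h1 hv]

lemma Hy.gamv {v : D} (hv : v ∈ ES c T) : c.G v = v :=
  Completion.coe_injective D ((c.hN.ext v).symm.trans (h.gam _ (S0_HB hv)))

lemma Hy.Um {s : ℝ} {L : Ix → V} (hs : 0 < s) (hL : IsLor L) (a : V) {v : D} (hv : v ∈ ES c T) :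
    c.Q.U s L a v ∈ ES c T := by
  let g0 : Sh c := ⟨⟨s, L, a, hs, hL⟩, false⟩
  have hc : ∀ v : D, g0.U c v = (c.Q.U s L a v : D) := fun v => h.t.sg.coe _ _ _ v hs hL
  have u1 : ∀ z, g0.inv.U c (g0.U c z) = z := fun z => by
    rw [h.t.sg.U_inv, ← ContinuousLinearMap.mul_apply, (h.t.sg.uni g0).1]; rfl
  have u2 : ∀ z, g0.U c (g0.inv.U c z) = z := fun z => by
    rw [h.t.sg.U_inv, ← ContinuousLinearMap.mul_apply, (h.t.sg.uni g0).2]; rfl
  obtain ⟨u, hu⟩ := P352W.Rp.U_lin (Q := c.Q) hs hL a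
  rw [hu]
  refine S0_le (c := c) (T := T) (S := (S0 c T).comap u) ?_ (fun i f w hf hw => ?_) hv
  · show u _ ∈ S0 c T
    rw [← hu, c.Q.U_vac _ _ _ hs hL]
    exact vac_S0
  · obtain ⟨κ, b, k⟩ := cov h.t h.st g0.inv i
    have e := congrArg (g0.U c) (k f hf w (c.Q.U s L a w) (by rw [← hc, u1]))
    rw [u2, hc] at e
    have e' : c.Q.U s L a (T i f w) =
        ∑ p, (κ p : ℂ) • T (b p) (g0.inv.pull f) (c.Q.U s L a w) := Completion.coe_injective D (by
      rw [e, ← Completion.coe_toComplL (𝕜 := ℂ), map_sum]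
      exact Finset.sum_congr rfl fun p _ => (map_smul _ _ _).symm)
    show u _ ∈ S0 c T
    rw [← hu, e']
    refine Submodule.sum_mem _ fun p _ => Submodule.smul_mem _ _ (s0_T (h.t.sg.test _ f hf) ?_)
    rw [hu]
    exact hw

omit h

/-! ## the theory -/

open Classical in
variable (c T) in
/-- restriction to the sector -/
def rs (v : D) : ES c T := if hv : v ∈ ES c T then ⟨v, hv⟩ else 0

lemma rs_coe {v : D} (hv : v ∈ ES c T) : (rs c T v : D) = v := by rw [rs, dif_pos hv]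

variable (c T) in
/-- the fields -/
def tt (i : ι) : Fld (ES c T) := fun f v => rs c T (T i f v)

variable (c T) in
/-- the similitudes -/
def uu (s : ℝ) (L : Ix → V) (a : V) (v : ES c T) : ES c T := rs c T (c.Q.U s L a v)

include h

lemma Hy.tc (i : ι) {f : Fn} (hf : IsTest f) (v : ES c T) :
    (tt c T i f v : D) = T i f v := rs_coe (h.Tm i hf v.2)

lemma Hy.uc {s : ℝ} {L : Ix → V} (hs : 0 < s) (hL : IsLor L) (a : V) (v : ES c T) :
    (uu c T s L a v : D) = c.Q.U s L a v := rs_coe (h.Um hs hL a v.2)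

lemma Hy.cy (S : Submodule ℂ (ES c T)) (h0 : ⟨c.Q.vac, S0_EE vac_S0⟩ ∈ S)
    (h1 : ∀ i f v, IsTest f → v ∈ S → tt c T i f v ∈ S) : S = ⊤ := by
  have h2 : S0 c T ≤ S.map (ES c T).subtype := by
    refine S0_le ⟨_, h0, rfl⟩ ?_
    rintro i f _ hf ⟨v, hv, rfl⟩
    exact ⟨_, h1 i f v hf hv, h.tc i hf v⟩
  refine Submodule.eq_top_iff'.2 fun v => ?_
  obtain ⟨u, hu, e⟩ := h2 v.2
  exact (Subtype.ext e : u = v) ▸ hu

lemma Hy.cyc (S : Submodule ℂ (ES c T)) (h0 : ⟨c.Q.vac, S0_EE vac_S0⟩ ∈ S)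
    (h1 : ∀ i f v, IsTest f → v ∈ S → tt c T i f v ∈ S) : Dense (S : Set (ES c T)) := by
  rw [h.cy S h0 h1]
  exact dense_univ

/-- the theory of the sector -/
def Hy.q : Theory (ES c T) where
  vac := ⟨c.Q.vac, S0_EE vac_S0⟩
  fld B := ∃ i, B = tt c T i
  bose B := ∃ i, B = tt c T i
  U := uu c T
  norm_vac := c.Q.norm_vac
  cyclic S h0 h1 := h.cyc S h0 fun i f v hf hv => h1 _ f v ⟨i, rfl⟩ hf hv
  lin := by
    rintro _ f g z v ⟨i, rfl⟩ hf hg
    refine Subtype.ext ?_
    have h1 := c.Q.lin _ f g z v (h.st.fld i) hf hg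
    rw [Submodule.coe_add, Submodule.coe_smul, h.tc i hf, h.tc i hg, ← h1]
    refine rs_coe ?_
    rw [h1]
    exact add_mem (h.Tm i hf v.2) (Submodule.smul_mem _ _ (h.Tm i hg v.2))
  cont := by
    rintro _ v ⟨i, rfl⟩
    refine continuous_induced_rng.2 ((c.Q.cont _ v (h.st.fld i)).congr fun g => ?_)
    exact (h.tc i ⟨g, rfl⟩ v).symm
  adj := by
    rintro _ ⟨i, rfl⟩
    refine ⟨_, ⟨i, rfl⟩, fun f v w hf => ?_⟩
    rw [Submodule.coe_inner, Submodule.coe_inner, h.tc i hf, h.tc i (isTest_bar hf)]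
    exact h.st.herm i f v w hf
  bose_fld _ h := h
  loc := by
    rintro _ _ f g v ⟨i, rfl⟩ ⟨k, rfl⟩ hf hg hs
    refine Subtype.ext ?_
    rw [h.tc i hf, h.tc k hg, h.tc k hg, h.tc i hf]
    exact c.Q.loc _ _ f g v (h.st.bose i) (h.st.fld k) hf hg hs
  U_inner s L a v w hs hL := by
    rw [Submodule.coe_inner, Submodule.coe_inner, h.uc hs hL, h.uc hs hL]
    exact c.Q.U_inner s L a v w hs hL
  U_vac s L a hs hL := Subtype.ext ((h.uc hs hL a _).trans (c.Q.U_vac s L a hs hL))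
  transl := by
    rintro _ a f v ⟨i, rfl⟩ hf
    refine Subtype.ext ?_
    rw [h.tc i hf, h.uc one_pos H496.isLor_one, h.uc one_pos H496.isLor_one,
      h.tc i (Grp.test_sim one_pos H496.isLor_one a hf)]
    exact c.Q.transl _ a f v (h.st.fld i) hf
  spectrum v := by
    obtain ⟨ν, h1, h2, h3⟩ := c.Q.spectrum v
    exact ⟨ν, h1, h2, fun a => by rw [Submodule.coe_inner, h.uc one_pos H496.isLor_one, h3]⟩

lemma Hy.qU {s : ℝ} {L : Ix → V} (hs : 0 < s) (hL : IsLor L) (a : V) (v : ES c T) :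
    (h.q.U s L a v : D) = c.Q.U s L a v := h.uc hs hL a v

lemma Hy.mul (s L a s' L' a') (v : ES c T) (hs : 0 < s) (hs' : 0 < s') (hL : IsLor L)
    (hL' : IsLor L') : h.q.U s L a (h.q.U s' L' a' v) =
      h.q.U (s * s') (fun m => sim 1 L 0 (L' m)) (sim s L a a') v := by
  refine Subtype.ext ?_
  rw [h.qU hs hL, h.qU hs' hL', h.qU (mul_pos hs hs') (ue_lor hL hL')]
  rcases c.hN.mul s L a s' L' a' hs hs' hL hL' with h1 | h1
  · exact h1 v
  · rw [h1.2.2 v]
    exact h.gamv (h.Um (mul_pos hs hs') (ue_lor hL hL') _ v.2)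

omit h

/-! ## the embedding -/

variable (c T) in
/-- the embedding of the sector -/
def jj : Completion (ES c T) →L[ℂ] Completion D := (ES c T).subtypeL.completion

lemma jj_coe (v : ES c T) : jj c T v = ((v : D) : Completion D) :=
  (ES c T).subtypeL.completion_apply_coe v

lemma jj_inner (z w : Completion (ES c T)) : inner ℂ (jj c T z) (jj c T w) = inner ℂ z w :=
  Completion.induction_on₂ z w (isClosed_eq (by fun_prop) (by fun_prop)) fun a b => by
    rw [jj_coe, jj_coe, Completion.inner_coe, Completion.inner_coe, Submodule.coe_inner]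

lemma jj_iso (z : Completion (ES c T)) : adjoint (jj c T) (jj c T z) = z :=
  ext_inner_left ℂ fun w => by rw [ContinuousLinearMap.adjoint_inner_right, jj_inner]

lemma jj_mem (z : Completion (ES c T)) : jj c T z ∈ HB c T :=
  Completion.induction_on z (HB_closed.preimage (jj c T).continuous) fun v => by
    rw [jj_coe]
    exact S0_HB v.2

lemma jj_pj (z : Completion D) : jj c T (adjoint (jj c T) z) = Pj c T z := by
  refine (Submodule.eq_starProjection_of_mem_of_inner_eq_zero (jj_mem _) ?_).symm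
  refine HB_ind (A := {w | inner ℂ (z - jj c T (adjoint (jj c T) z)) w = 0})
    (isClosed_eq (by fun_prop) continuous_const) fun v hv => ?_
  change inner ℂ _ _ = _
  rw [← jj_coe ⟨v, S0_EE hv⟩, inner_sub_left, jj_inner, ContinuousLinearMap.adjoint_inner_left,
    sub_self]

include h

lemma Hy.jU {s : ℝ} {L : Ix → V} (hs : 0 < s) (hL : IsLor L) (y : V) (z : Completion (ES c T)) :
    jj c T (Ue h.q s L y z) = Ue c.Q s L y (jj c T z) :=
  Completion.induction_on z (isClosed_eq ((jj c T).continuous.comp (ue_cont _ _ _))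
    ((ue_cont _ _ _).comp (jj c T).continuous)) fun v => by
      rw [ue_coe hs hL, jj_coe, jj_coe, ue_coe hs hL, h.qU hs hL]

lemma Hy.uv (hU : UVac c.Q) : UVac h.q := fun z hz => by
  obtain ⟨a, ha⟩ := hU (jj c T z) fun y => by rw [← h.jU one_pos H496.isLor_one, hz]
  refine ⟨a, ?_⟩
  rw [← jj_iso z, ha, ← jj_iso (a • om h.q), map_smul (jj c T)]
  exact congrArg (fun w => adjoint (jj c T) (a • w)) (jj_coe h.q.vac).symm

theorem Hy.sec (a) : Sec c T (ES c T) h.q (tt c T) a (jj c T) :=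
  ⟨jj_coe, jj_iso, jj_pj, rfl,
    fun s L y z hs hL => by rw [Ug_apply _ hs hL, Ug_apply _ hs hL, h.jU hs hL],
    fun s L y v hs hL => h.qU hs hL y v, fun i f v hf => h.tc i hf v,
    fun _ hB => hB, fun i => ⟨i, rfl⟩, h.mul, h.cy, h.cyc, h.uv, fun z => h.gam _ (jj_mem z)⟩

omit h

section gens

variable {E : Submodule ℂ D} {q : Theory E} {t : ι → Fld E} {a : (V → V) → E → E}
  {j : Completion E →L[ℂ] Completion D} (s : Sec c T E q t a j)
include s

theorem Sec.ch (a') : Sec c T E q t a' j :=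
  ⟨s.1, s.2, s.3, s.4, s.5, s.6, s.7, s.8, s.9, s.10, s.11, s.12, s.13, s.14⟩

theorem Sec.up {s' : ℝ → ℝ} {L : ℝ → Ix → V} {y : ℝ → V} (p : ∀ e, 0 < s' e ∧ IsLor (L e))
    {v z : E} (d : HasDerivAt (fun e => q.U (s' e) (L e) (y e) v) z 0) :
    HasDerivAt (fun e => c.Q.U (s' e) (L e) (y e) v) (z : D) 0 :=
  ((E.subtypeL.restrictScalars ℝ).hasFDerivAt.comp_hasDerivAt (0 : ℝ) d).congr_of_eventuallyEq
    (.of_forall fun e => (s.qU _ _ _ v (p e).1 (p e).2).symm)

theorem Sec.qA (r : Rep q a) (X : V → V) (v : E) (hX : IsSim 0 X) : (a X v : D) = c.A X v := by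
  obtain ⟨y, w, hw, hX⟩ := hX
  obtain ⟨s', L, b, K, k1⟩ := ex_crv1 hw y
  have p := fun e => And.intro (K.sp e) (K.lor e)
  have d := s.up p (r.der s' L b X v K.s0 K.L0 K.a0 p fun n x => K.dX hX n x)
  exact smul_right_injective D Complex.I_ne_zero (d.unique (Fsg.der (c := c) K k1 hX v))

theorem Sec.dv (r : Rep q a) (m : Ix) (v : E) : ((Dv q m v : E) : D) = Dv c.Q m v := by
  have h3 := P352R.L72.der (Q := q) r.der m v
  exact (s.up (s' := fun _ => 1) (L := fun _ => GF.one) (y := fun t => bas m t)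
    (fun _ => ⟨one_pos, H496.isLor_one⟩) h3).unique ((wb_row c).der m v)

theorem Sec.enq (r : Rep q a) (k : ℕ) : ∀ v : E, en q k v = en c.Q k v := by
  induction k with
  | zero => exact fun v => rfl
  | succ k ih => exact fun v => by simp only [en, ih, s.dv r]

theorem Sec.eb (r : Rep q a) (hE : ∀ i, EB1 c.Q (T i)) : EBd q := by
  intro B hB
  obtain ⟨i, rfl⟩ := s.fld B hB
  obtain ⟨k, hk⟩ := hE i
  refine ⟨k, fun f hf => (hk f hf).imp fun C hC v => ?_⟩
  rw [s.enq r, Submodule.coe_norm, s.eq i _ _ hf.1]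
  exact hC v

end gens

section net

variable {E : Submodule ℂ D} {j : Completion E →L[ℂ] Completion D} (w : WC0 c T)
include w

theorem cs_star (O : Set V) : ∀ y ∈ Cs T j O, star y ∈ Cs T j O := by
  rintro _ ⟨O', h1, h2, Y, hY, rfl⟩
  exact ⟨O', h1, h2, _, w.star O' Y hY, rd_star j Y⟩

theorem mem_nn {O : Set V} {x : Completion E →L[ℂ] Completion E} :
    x ∈ Nn T j O ↔ ∀ y ∈ Cs T j O, y * x = x * y :=
  (StarSubalgebra.mem_centralizer_iff ℂ).trans
    ⟨fun h y hy => (h y hy).1, fun h y hy => ⟨h y hy, h _ (cs_star w O y hy)⟩⟩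

end net

variable (T) in
/-- the algebras of the family -/
def Aw (O : Set V) : VonNeumannAlgebra (Completion D) where
  toStarSubalgebra := StarSubalgebra.centralizer ℂ (Wc T O)
  centralizer_centralizer' := by simp

theorem mem_aw (w : WC0 c T) {O : Set V} {x : Completion D →L[ℂ] Completion D} :
    x ∈ Aw T O ↔ ∀ y ∈ Wc T O, y * x = x * y :=
  (StarSubalgebra.mem_centralizer_iff ℂ).trans
    ⟨fun h y hy => (h y hy).1, fun h y hy => ⟨h y hy, h _ (w.star O y hy)⟩⟩

variable (c T) in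
/-- strong locality of the family -/
structure SLf : Prop where
  dns : ∀ a b, IsNull a → IsNull b → GF.mdot a b = 1 →
    Dense {z | ∃ Y ∈ Wc T (Wdg a b 0), Y c.Om = z}
  loc : ∀ a b, IsNull a → IsNull b → GF.mdot a b = 1 → ∀ x ∈ Aw T (Wdg a b 0), x ∈ Wc T (Wdg b a 0)

variable (T) in
/-- the operators of `N W` lift to operators of `Aw T W` -/
def Lf {E : Submodule ℂ D} (j : Completion E →L[ℂ] Completion D)
    (N : Set V → VonNeumannAlgebra (Completion E)) : Prop :=
  ∀ a b, IsNull a → IsNull b → GF.mdot a b = 1 → ∀ y ∈ N (Wdg a b 0), ∃ x ∈ Aw T (Wdg a b 0),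
    ‖x‖ ≤ ‖y‖ ∧ (∀ z, x (j z) = j (y z)) ∧ ∀ z, star x (j z) = j (star y z)

theorem nb_thm (t : E0 c) (hT : HF c T) (sl : SLf c T) {E : Submodule ℂ D}
    {q : Theory E} {τ : ι → Fld E} {a : (V → V) → E → E} {j : Completion E →L[ℂ] Completion D}
    (hl : LIFT (Completion D) (Completion E)) (hb : BIC E) (w : WC0 c T) (s : Sec c T E q τ a j)
    (rp : Rep q a) : ∃ N, LNm q a N ∧ Lf T j N := by
  have op : ∀ a b : V, IsOpen (Wdg a b 0) := fun a b => by
    have : ∀ a : V, Continuous fun x : V => GF.mdot a (x - 0) := fun a => by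
      unfold GF.mdot
      fun_prop
    exact (isOpen_lt (this a) continuous_const).inter (isOpen_lt continuous_const (this b))
  have cm : ∀ a b : V, GF.mdot a b = 1 → GF.mdot b a = 1 := fun a b h => by
    rw [← h]
    exact Finset.sum_congr rfl fun m _ => by ring
  have jv : j (om q) = c.Om := (s.coe _).trans (congrArg _ s.vac)
  have lf : Lf T j (Nn T j) := fun a b ha hb hab y hy => by
    obtain ⟨x, h1, h2, h3, h4⟩ := hl j (Wc T (Wdg a b 0)) (om q) y s.iso
      (fun Y hY Y' hY' => ⟨w.add _ Y hY Y' hY', w.mul _ (op a b) Y hY Y' hY'⟩)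
      (fun Y hY => ⟨w.star _ Y hY, fun z => w.smul _ z Y hY⟩)
      (by
        rw [show j ∘L adjoint j = Pj c T from ContinuousLinearMap.ext s.pj]
        exact w.pj _)
      (jv ▸ sl.dns a b ha hb hab)
      fun Y hY z => (DFunLike.congr_fun
        ((mem_nn w).1 hy _ ⟨_, op a b, subset_rfl, Y, hY, rfl⟩) z).symm
    exact ⟨x, (mem_aw w).2 h2, h1, h3, h4⟩
  refine ⟨Nn T j, ⟨rp, fun O B f hB hf => ?_, fun O O' h X hX => ?_,
    fun r L y O X hX hr hL => ?_, fun a b X ha hb hab hX => ?_⟩, lf⟩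
  · obtain ⟨i, rfl⟩ := s.fld B hB
    refine ⟨τ i (bar f), hb (Cs T j O) _ _ _
      ⟨_, isOpen_univ, Set.subset_univ _, 1, w.one _, ContinuousLinearMap.ext fun z =>
        (s.iso z).symm⟩ ?_ (cs_star w O) (fun x => (mem_nn w).2) (fun v u => ?_) ?_⟩
    · rintro _ ⟨O1, a1, a2, Y, hY, rfl⟩ _ ⟨O2, b1, b2, Y', hY', rfl⟩
      have o := a1.inter b1
      refine ⟨_, o, Set.subset_inter a2 b2, Y * Pj c T * Y', w.mul _ o _ (w.mul _ o _
        (w.anti _ _ Set.inter_subset_left Y hY) _ (w.pj _)) _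
        (w.anti _ _ Set.inter_subset_right Y' hY'), ContinuousLinearMap.ext fun z => ?_⟩
      show adjoint j (Y (j (adjoint j _))) = adjoint j (Y (Pj c T _))
      rw [s.pj]
      rfl
    · rw [Submodule.coe_inner, Submodule.coe_inner, s.eq _ _ _ hf.1, s.eq _ _ _ (isTest_bar hf.1)]
      exact hT.herm i f v u hf.1
    · rintro _ ⟨O1, -, a2, Y, hY, rfl⟩ v u
      rw [rd_in, rd_in, s.coe, s.coe, s.coe, s.coe, s.eq _ _ _ hf.1,
        s.eq _ _ _ (isTest_bar hf.1)]
      exact hY i f ⟨hf.1, hf.2.1, hf.2.2.trans a2⟩ v u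
  · exact (mem_nn w).2 fun y ⟨O1, a1, a2, e⟩ => (mem_nn w).1 hX y ⟨O1, a1, h.trans a2, e⟩
  · obtain ⟨W, hW⟩ := (ublock rp).lin r L y hr hL
    let g : Sh c := ⟨⟨r, L, y, hr, hL⟩, false⟩
    have e : ∀ z, j (W z) = g.U c (j z) := fun z => by
      rw [hW, ← Ug_apply q hr hL, s.U _ _ _ _ hr hL]
      rfl
    refine ⟨(W : Completion E →L[ℂ] Completion E) ∘L X ∘L (W.symm : Completion E →L[ℂ] Completion E),
      (mem_nn w).2 ?_, fun z => by simp [← hW]⟩
    rintro _ ⟨O1, a1, a2, Y, hY, rfl⟩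
    have k : ∀ z, rd j Y (W z) = W (rd j (star (g.U c) * Y * g.U c) z) := fun z => by
      refine ext_inner_left ℂ fun u => ?_
      obtain ⟨u, rfl⟩ := W.surjective u
      rw [W.inner_map_map, rd_in, rd_in, e, e, ContinuousLinearMap.star_eq_adjoint]
      exact (ContinuousLinearMap.adjoint_inner_right _ _ _).symm
    have h := (mem_nn w).1 hX _ ⟨g.act ⁻¹' O1, a1.preimage (by
      show Continuous fun x => sim r L y x
      unfold sim
      fun_prop), Set.image_subset_iff.1 a2, _, w.cov g O1 Y hY, rfl⟩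
    refine ContinuousLinearMap.ext fun z => ?_
    obtain ⟨z, rfl⟩ := W.surjective z
    show rd j Y (W (X (W.symm (W z)))) = W (X (W.symm (rd j Y (W z))))
    rw [k, k, W.symm_apply_apply, W.symm_apply_apply]
    exact congrArg W (DFunLike.congr_fun h z)
  · obtain ⟨x, h1, -, h3, -⟩ := lf b a hb ha (cm a b hab) X hX
    rw [VonNeumannAlgebra.mem_commutant_iff]
    intro y hy
    obtain ⟨x', h4, -, h5, -⟩ := lf a b ha hb hab y hy
    refine ContinuousLinearMap.ext fun z => ?_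
    have := DFunLike.congr_fun ((mem_aw w).1 h4 x (sl.loc b a hb ha (cm a b hab) x h1)) (j z)
    show y (X z) = X (y z)
    rw [← s.iso (y _), ← s.iso (X (y z)), ← h5, ← h3, ← h3, ← h5]
    exact congrArg _ this.symm

/-- the vacuum separates the fields of the family -/
theorem sep (t : E0 c) (w : WC0 c T) (sl : SLf c T) {i i' : ι}
    (h : ∀ f, IsTest f → T i f c.Q.vac = T i' f c.Q.vac) {f : Fn} (hf : In Set.univ f) (v : D) :
    T i f v = T i' f v := by
  obtain ⟨g, hg⟩ := t.sg.ex _ hf.bar.2.1.isCompact.isBounded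
  have hi : In (g.act ⁻¹' W0) (bar f) := ⟨hf.bar.1, hf.bar.2.1, hg⟩
  have e : g.U c (T i f v : D) = g.U c (T i' f v : D) := by
    refine ext_inner_right ℂ (congrFun (Continuous.ext_on (sl.dns va vb Grp.na Grp.nb Grp.nab) (by fun_prop) (by fun_prop) ?_))
    rintro _ ⟨Y, hY, rfl⟩
    have k := fun i => w.cov g W0 Y hY i _ hi c.Q.vac v
    simp only [bar_bar, ContinuousLinearMap.mul_apply, ContinuousLinearMap.star_eq_adjoint,
      ContinuousLinearMap.adjoint_inner_right,
      show g.U c (c.Q.vac : Completion D) = c.Om from (t.sg.vac g).1] at k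
    beta_reduce
    rw [k, k, h _ hi.1]
  have u1 : ∀ z, star (g.U c) (g.U c z) = z := fun z => DFunLike.congr_fun (t.sg.uni g).1 z
  exact Completion.coe_injective D ((u1 _).symm.trans ((congrArg _ e).trans (u1 _)))

end

end Vale.Agent.N352.EP
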