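import Vale.Agent.N352.EP.Fin
import Vale.Agent.N352.EP.Go
import Vale.Agent.N352.EP.PotI
import Vale.Agent.N352.V5.Top

/-!
# N352, block EP: the extension without the generator of the dilations
-/

set_option linter.all false

open Filter Topology

namespace Vale.Agent.N352.EP.Tp

noncomputable section

universe u v

open Vale.Agent.P352 Vale.Agent.P352.GF Vale.Agent.P352.BW Vale.Agent.P352.H246
open Vale.Agent.P352.H496 Vale.Agent.P352.H755 Vale.Agent.P352.H15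
open Vale.Agent.P352X Vale.Agent.P352L Vale.Agent.P352R
open EP.Mn F
open T (Cm corm)
open K (Gn)
open UniformSpace (Completion)

variable {D : Type u} [NormedAddCommGroup D] [InnerProductSpace ℂ D]
  {D' : Type v} [NormedAddCommGroup D'] [InnerProductSpace ℂ D']

/-- the hypotheses -/
structure Hb (c : Cf D) (T : Ix → Ix → Fld D) : Prop where
  stress : P.Stress0 c.Q T
  charges : P.PCh c.Q T c.A
  vacua : Dn.IVac c.Q
  cov : ∀ s L a, 0 < s → IsLor L → P.Cov c.Q s L a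
  scl : ∀ m n, ∃ F B, P.Scl c.Q (T m n) F B
  ebd : Df.EBd c.Q
  reg : Di.FBT c.Q T ∨ Di.SL c.Q T ∨ ∃ N, LN0 c.Q c.G c.Γ N

/-- the analytic core -/
def Core2 (c : Cf D) (T : Ix → Ix → Fld D) : Prop :=
  ∃ x : Ctx D, x.toCf = c ∧ x.T = T ∧ (∃ D' Q' G' e L, FINp x (D' := D') Q' G' e L ∧
    (∀ v, Cyc Q' v) ∧ N352.G.X.Cl Q') ∧ MX c T x.l

theorem core_of (c : Cf D) {T N l} (hT : c.Q.IsStress T) (hl : Pot c T N l) (a : AW c N)
    (e : P352X.EBd c.Q) (h0 : COV0 c) : Core2 c T :=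
  have ⟨ml, d1, o, t⟩ := gt_row c T N l hT hl a e h0
  ⟨⟨c, T, l, hT, hl.pot, ml, d1⟩, rfl, rfl, fin_p (e0_thm c) _ h0 o t, hl.mix⟩

theorem Hb.sl {c : Cf D} {T} (h : Hb c T) : SL c.Q T := by
  have hT := Br.stress0.1 h.stress
  have e := Br.ebd.1 (Bg.ebd.1 h.ebd)
  rcases h.reg with k | k | ⟨N, k⟩
  exacts [En.sl_leb hT e fun m n => Fb.lb (c := c) (c.Q.bose_fld _ (hT.bose m n)) (k m n), k.1,
    En.sl_net k hT]

open Fss.G in
/-- the stress tensor of dimension four -/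
theorem fourE {c : Cf D} {T} (h : Hb c T) {R : Theory D'} {i : D →ₗᵢ[ℂ] D'}
    {G' : D' → D'} {T' : Ix → Ix → Fld D'} (s : P.Sect c.Q R i) (g : P.Gr R G')
    (hT' : P.Stress0 R T') (hP : Dn.PGen R T') (hx : ∀ m n, P.Xt i (T m n) (T' m n)) :
    ∃ S S', c.Q.IsStress S ∧ ND.PCh c.Q S c.A ∧ Core2 c S ∧ R.IsStress S' ∧
      Dn.Same R T' S' ∧ ∀ m n, P.Xt i (S m n) (S' m n) := by
  have hT := Br.stress0.1 h.stress
  have e := Br.ebd.1 (Bg.ebd.1 h.ebd)
  have cd : Cw.Cd c.Q := fun s hs => h.cov s _ 0 hs lor1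
  obtain ⟨F, C, hC, c4, c1, d, -, N, l, p, q⟩ := sectorI (c := c) (fun E _ _ => U.rows E)
    hT h.charges cd (fun m n => (h.scl m n).imp fun _ => Exists.imp fun _ k => ⟨k.1, k.2⟩)
    h.vacua (fun m n => e _ (c.Q.bose_fld _ (hT.bose m n))) (sl1_of hT cd e h.sl)
  have k := core_of c c1 q p e (cov0_of h.cov)
  have r' := m1_gr (Br.gr.1 g)
  choose C' c1' c2 using fun m n => Cw.scl_ext (Br.sect.1 s) (m1_gr c.hN.toGr) r'
    (h.stress.bose m n) (hT'.bose m n) (hx m n) (hC m n)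
  obtain ⟨d1, d2⟩ :=
    fss0 r' (fun t ht => s.cov t _ 0 ht H496.isLor_one) (Br.stress0.1 hT') hP c1' c4
  exact ⟨_, _, c1, d, k, d1, same_of g hT'.bose d1.bose hP d2, fun m n => c2 m n _⟩

open Vale.Agent.P352X.EB in
/-- the fields of the extension are sums of components of multiplets -/
theorem mfa0 {c : Ctx D} {D' : Submodule ℂ (Completion D)} {P : Theory D'} {G' e L}
    (h : FINp c P G' e L) (hM : MfAll c.Q) (hc : COV0 c.toCf) : MfAll P := fun A a => by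
  obtain ⟨m, C, hC, k⟩ := h.gen A a
  have key : ∀ i, ∃ (r : ℕ) (B : Fin r → Fld D'), (∀ j, ∃ k Φ a, IsMf P k Φ ∧ B j = Φ a) ∧
      ∀ f v, IsTest f → C i f v = ∑ j, B j f v := fun i => by
    rcases hC i with k | ⟨C', a, b⟩
    · refine ⟨1, fun _ => L, fun _ => ⟨EG.rp0, fun _ => L, (0 : Fin 1), ⟨fun _ =>
        P.bose_fld _ h.sca.1, fun a M f v hM hf => ?_⟩, rfl⟩, fun _ _ _ => by simp [k]⟩
      have := h.sca.2.2 1 M 0 f v one_pos hM hf
      rw [Real.one_rpow] at this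
      have e : ∀ (a : Fin 1) (w : D'), ((1 : ℝ) : ℂ) • w =
          ∑ b : Fin 1, (1 : Matrix (Fin 1) (Fin 1) ℂ) b a • w := fun a w => by
        rw [Fin.sum_univ_one, Subsingleton.elim a 0]
        simp
      exact this.trans (e a _)
    · obtain ⟨r, B, p, q⟩ := hM C' a
      choose k Φ j p p' using p
      refine ⟨r, fun i => e (B i), fun i => ⟨k i, fun b => e (Φ i b), j i,
        ⟨fun b => h.ext.fld _ ((p i).1 b), fun b M f v hL hf => ?_⟩, congrArg e (p' i)⟩,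
        fun f v hf => (b f v hf).trans (ext_sum h.ext a (fun i => p' i ▸ (p i).1 _) q hf v)⟩
      exact ext_cov hc h.ext ⟨1, M, 0, one_pos, hL⟩ ((p i).1 b) (p i).1
        (fun g w hg => (p i).2 b M g w hL hg) hf v
  choose r B b1 b2 using key
  let E := (Fintype.equivFin (Σ i, Fin (r i))).symm
  refine ⟨_, fun j => B (E j).1 (E j).2, fun j => b1 _ _, fun f v hf => (k f v).trans ?_⟩
  rw [E.sum_comp fun j => B j.1 j.2 f v, Fintype.sum_sigma]
  exact Finset.sum_congr rfl fun i _ => b2 i f v hf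

/-- **the local extension** -/
theorem extenE0 (c : Cf D) (hM : MfAll c.Q) (hc : COV0 c) {S : Ix → Ix → Fld D}
    (k : Core2 c S) : V5.Xn0 c.Q c.Γ S := by
  obtain ⟨x, rfl, rfl, ⟨E, P, G', e, L, h0, cy, cl⟩, Z, z2, z1, z3⟩ := k
  have ⟨h1, h2, h3, h4, h5, h6⟩ := h0
  have mx : ∀ R, IsEnl P R → Pf.Mx R (improve (fun m n => e (x.T m n)) L) := fun R n F w hF => by
    have hv : (R.vac : Completion D) = x.toCf.Om := by rw [n.vac]; exact h1.vac
    have b3 := z3 _ (imp_mem (R := R) (S := fun m n => e (x.T m n)) (L := L) E.subtype Z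
      (fun m n' f hf => by
        rw [n.vac, Submodule.subtype_apply,
          h1.agree _ f _ _ (x.Q.bose_fld _ (x.hT.bose m n')) hf cyc_vac h1.vac]
        exact z2 m n' f hf)
      (fun f hf => by rw [n.vac, Submodule.subtype_apply, h5 f hf]; exact z1 f hf) hF) w
    rw [← hv, Submodule.subtype_apply, ← Submodule.coe_inner, ← Submodule.coe_inner] at b3
    refine b3.congr' (eventually_nhdsWithin_of_forall fun r hr => ?_)
    obtain ⟨p1, p2⟩ := CA.lsc_pos hr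
    show inner ℂ _ (Ue _ _ _ _ _) = inner ℂ _ (R.U _ _ _ _)
    rw [← h1.U _ _ _ _ p1 p2, n.U]
    rfl
  have t0 := fun R n => (Br.impr.2 (EB.scal_row _ P _ L h2 h3 h4 R n).1).traceless
  exact ⟨_, E, P, G', e, L, Pf.ext_of h1 (N352.E.Mn.afw1 P), ⟨⟨cy, h6⟩, mfa0 h0 hM hc⟩, h2, h3,
    fun R n g => corm (Br.gr.1 g) (H746.isStress_enl (Br.enl.1 n) h2)
      (scalar_enl (Br.enl.1 n) h3) (t0 R (Br.enl.1 n)) (mx R (Br.enl.1 n))⟩

section key

variable (c : Cf D) {S : Ix → Ix → Fld D} (k : Core2 c S) {R : Theory D'} {i : D →ₗᵢ[ℂ] D'}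
  {G' : D' → D'} {T' S' : Ix → Ix → Fld D'} (h : P.Sect c.Q R i) (g : P.Gr R G')
  (d1 : R.IsStress S') (d2 : Dn.Same R T' S') (c2 : ∀ m n, P.Xt i (S m n) (S' m n))
include k h g d1 d2 c2

open Fss.G in
/-- **a theory that contains the relatively local scalars is conformally invariant** -/
theorem keyE (hX : Max c.Q c.Γ (N352.E.Mn.N1 D) R i) : ∃ t, Cm R G' T' t := by
  obtain ⟨x, rfl, rfl, ⟨E, P, G1, e, L, ⟨a1, -, a4, -, a5, -⟩, -⟩, Z, z2, z1, z3⟩ := k
  have hl := x.hl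
  obtain ⟨B, b1, b2⟩ := hX E P G1 e L (Pf.ext_of a1 (N352.E.Mn.afw1 P)) a4
  have b2 : ∀ f, IsTest f → ((B f R.vac : D') : Completion D') = jc i (x.l f) := fun f hf => by
    rw [b2 f hf, a5 f hf, jc_map]
  obtain ⟨b3, b4⟩ := scal_sect h d1 c2 hl.trace (fun s M a f hs hM hf => by
    have k : ((s ^ 2 : ℝ) : ℂ) ≠ 0 := Complex.ofReal_ne_zero.2 (by positivity)
    rw [show P352R.P.Ue x.Q s M a _ = _ from (Ug_apply _ hs hM _ _).symm,
      Sq.pot (c := x.toCf) hl a hs hM hf,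
      ← Complex.coe_smul, smul_smul, Complex.ofReal_inv, mul_inv_cancel₀ k, one_smul]) b1 b2
  suffices k : Cm R G' S' (improve S' B) from ⟨_, k.same d2⟩
  refine corm (Br.gr.1 g) d1 b3 b4 fun F w hF' => ?_
  obtain ⟨y, y1, y2⟩ := imp_mem (R := R) (S := S') (L := B)
    (Completion.toComplL (𝕜 := ℂ) (E := D')).toLinearMap (Z.map (jc i).toLinearMap)
    (fun m n f hf => ⟨_, z2 m n f hf, (jc_coe _).trans <| by rw [c2 m n f _ hf, h.vac]; rfl⟩)
    (fun f hf => ⟨_, z1 f hf, (b2 f hf).symm⟩) hF'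
  have y2 : ((smt (improve S' B) F R.vac : D') : Completion D') = jc i y := y2.symm
  have m := z3 y y1 (ContinuousLinearMap.adjoint (jc i) (w : Completion D'))
  have o : jc i x.toCf.Om = (R.vac : Completion D') := jc_om h
  rw [ContinuousLinearMap.adjoint_inner_right, ← jc_inner (i := i), ← y2, o, Completion.inner_coe,
    Completion.inner_coe] at m
  refine m.congr' (eventually_nhdsWithin_of_forall fun r hr => ?_)
  obtain ⟨p1, p2⟩ := CA.lsc_pos hr
  obtain ⟨z, k⟩ := ug_sur x.toCf p1 p2 0 y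
  show inner ℂ y (P352R.P.Ue _ _ _ _ _) = inner ℂ _ (R.U _ _ _ w)
  rw [← Completion.inner_coe (smt _ _ _), y2, ← ue_coe p1 p2, ← k, ue_inner p1 p2, jc_ue h p1 p2,
    ue_inner p1 p2, ContinuousLinearMap.adjoint_inner_right]

end key

/-- **the analytic results** -/
theorem kit0 (c : Cf D) {T} (b : Hb c T) (m : P.MfA c.Q) {D' : Type u} [NormedAddCommGroup D']
    [InnerProductSpace ℂ D'] {R : Theory D'} {i G' T'} (s : P.Sect c.Q R i) (g : P.Gr R G')
    (c' : P.Stress0 R T') (d : Dn.PGen R T') (e : ∀ m n, P.Xt i (T m n) (T' m n)) :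
    (∃ S S', c.Q.IsStress S ∧ P.PCh c.Q S c.A ∧ R.IsStress S' ∧ Dn.Same R T' S' ∧
      (∀ m n, P.Xt i (S m n) (S' m n)) ∧ V5.Xn0 c.Q c.Γ S) ∧
      (Max c.Q c.Γ (N352.E.Mn.N1 D) R i → ∃ t, Cm R G' T' t) := by
  obtain ⟨S, S', h1, h0, h2, h3, h4, h5⟩ := fourE b s g c' d e
  exact ⟨⟨S, S', h1, h0, h3, h4, h5, extenE0 c (Br.mfa.1 m) (cov0_of b.cov) h2⟩,
    keyE c h2 s g h3 h4 h5⟩

end

end Vale.Agent.N352.EP.Tp
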