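import Vale.Agent.N352.EP.Wd

/-!
# N352, block EP: tempered bounds without finite scaling laws (abstract part)
-/

set_option linter.all false

open MeasureTheory Filter Topology Metric
open scoped SchwartzMap ComplexConjugate ContDiff

namespace Vale.Agent.N352.EP

open Vale.Agent.P352 Vale.Agent.P352.GF Vale.Agent.P352.BW Vale.Agent.P352.H246
open Vale.Agent.P352.H496 Vale.Agent.P352.H755 Vale.Agent.P352.H15
open Vale.Agent.P352.SubConf (IsAdj)
open Vale.Agent.P352X Vale.Agent.P352X.EB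
open UniformSpace (Completion)

noncomputable section

variable {D : Type*} [NormedAddCommGroup D] [InnerProductSpace ℂ D]

/-- operators on the domain that depend on a Schwartz function -/
structure Slot (c : Ctx D) (S S' : Sch → Completion D → Completion D) : Prop where
  mem : ∀ F v, D1 c v → D1 c (S F v)
  mem' : ∀ F v, D1 c v → D1 c (S' F v)
  linv : ∀ F (z : ℂ) v w, D1 c v → D1 c w → S F (v + z • w) = S F v + z • S F w
  linf : ∀ F G (z : ℂ) v, D1 c v → S (F + z • G) v = S F v + z • S G v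
  herm : ∀ F v w, D1 c v → D1 c w → inner ℂ w (S F v) = inner ℂ (S' F w) v
  cont : ∀ v, D1 c v → Continuous fun F => S F v

/-- the dilation by `2 ^ k` -/
def d2k (c : Cf D) (k : ℕ) : Sh c := dl0 c (2 ^ k) (one_le_pow₀ one_le_two)

variable {c : Ctx D} {Λ : Type*}

/-- all dilates of the letter `a` are values of one slot -/
def Sum1 (x : Lt c Λ) (a : Λ) : Prop := ∃ S S', Slot c S S' ∧ ∀ m : ℕ, ∃ (C : ℝ) (e : ℕ), 0 ≤ C ∧
  ∀ (k : ℕ) (f h : Sch), ev h = (d2k c.toCf k).pull (ev f) → tsupport h ⊆ closedBall 0 1 →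
    HasCompactSupport f → ∃ F, sn m F ≤ C * (2 ^ k) ^ e * sn m h ∧ ∀ v, D1 c v →
      x.op a (ev f) ((d2k c.toCf k).U c.toCf v) = (d2k c.toCf k).U c.toCf (S F v)

namespace Tp

open EG.H.JBp (sn0 sn_mono snw_cons snw0 snw_mono snw_snoc ubp mkL)
open EG.H.Tmp (CS BS)

variable {x : Lt c Λ} {S S' : Λ → Sch → Completion D → Completion D}

/-- words of slots -/
def aq (S : Λ → Sch → Completion D → Completion D) (u : List (Λ × Sch)) (v : Completion D) :
    Completion D := u.foldr (fun p w => S p.1 p.2 w) v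

theorem aq_cons (p : Λ × Sch) (u : List (Λ × Sch)) (v : Completion D) :
    aq S (p :: u) v = S p.1 p.2 (aq S u v) := rfl

theorem aq_snoc (u : List (Λ × Sch)) (p : Λ × Sch) (v : Completion D) :
    aq S (u ++ [p]) v = aq S u (S p.1 p.2 v) := by
  simp [aq, List.foldr_append]

variable (t : E1 x) (s : ∀ a, Slot c (S a) (S' a))
include s

theorem aq_mem (u : List (Λ × Sch)) {v : Completion D} (hv : D1 c v) : D1 c (aq S u v) := by
  induction u with
  | nil => exact hv
  | cons p u ih => exact (s _).mem _ _ ih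

theorem aq_lin (u : List (Λ × Sch)) (z : ℂ) {v w : Completion D} (hv : D1 c v) (hw : D1 c w) :
    aq S u (v + z • w) = aq S u v + z • aq S u w := by
  induction u with
  | nil => rfl
  | cons p u ih =>
    rw [aq_cons, aq_cons, aq_cons, ih, (s _).linv _ _ _ _ (aq_mem s u hv) (aq_mem s u hw)]

theorem aq_herm (u : List (Λ × Sch)) {w : Completion D} (hw : D1 c w) :
    ∃ w', ∀ v, D1 c v → inner ℂ w (aq S u v) = inner ℂ w' v := by
  induction u generalizing w with
  | nil => exact ⟨w, fun v _ => rfl⟩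
  | cons p u ih =>
    obtain ⟨w', h⟩ := ih ((s p.1).mem' p.2 w hw)
    exact ⟨w', fun v hv => by rw [aq_cons, (s _).herm _ _ _ (aq_mem s u hv) hw, h v hv]⟩

/-- the last slot -/
def Ψ (a : Λ) {v : Completion D} (hv : D1 c v) (u : List (Λ × Sch)) : Sch →ₗ[ℂ] Jq.S1 t :=
  mkL (fun f => ⟨aq S u (S a f v), aq_mem s u ((s a).mem _ _ hv)⟩) fun f g z => Subtype.ext (by
    show aq _ _ _ = aq _ _ _ + z • aq _ _ _
    rw [(s a).linf _ _ _ _ hv, aq_lin s u z ((s a).mem _ _ hv) ((s a).mem _ _ hv)])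

theorem Ψ_cont (a : Λ) {v : Completion D} (hv : D1 c v) (u : List (Λ × Sch)) :
    Continuous (Ψ t s a hv u) := by
  haveI := t.ana.barr
  refine cont_of_weak (Ψ t s a hv u) dense_univ fun z _ => ?_
  obtain ⟨w', h⟩ := aq_herm s u (w := z.1) z.2
  have e : (fun f => inner ℂ z (Ψ t s a hv u f)) = fun f : Sch => inner ℂ w' (S a f v) := by
    funext f
    rw [Submodule.coe_inner]
    exact h _ ((s a).mem _ _ hv)
  rw [e]
  exact continuous_const.inner ((s a).cont v hv)

include t in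
theorem jb (ls : List Λ) : ∀ v, D1 c v → ∃ (m : ℕ) (C : ℝ), 0 ≤ C ∧
    ∀ u : List (Λ × Sch), u.map Prod.fst = ls → ‖aq S u v‖ ≤ C * snw m u := by
  induction ls using List.reverseRecOn with
  | nil =>
    intro v _
    refine ⟨0, ‖v‖, norm_nonneg _, fun u hu => ?_⟩
    obtain rfl := List.map_eq_nil_iff.1 hu
    simp [snw, aq]
  | append_singleton ls a ih =>
    intro v hv
    haveI := t.ana.baire
    obtain ⟨m, k, C, hC, h⟩ := ubp
      (fun u : {u : List (Λ × Sch) // u.map Prod.fst = ls} => Ψ t s a hv u.1)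
      (fun u => Ψ_cont t s a hv u.1) (fun m u => m * snw m u.1) fun f => by
        obtain ⟨m, C, hC, h⟩ := ih _ ((s a).mem f v hv)
        refine ⟨max m ⌈C⌉₊, fun u => (h u.1 u.2).trans ?_⟩
        refine mul_le_mul ((Nat.le_ceil C).trans ?_) (snw_mono (le_max_left _ _) _) (snw0 _ _)
          (Nat.cast_nonneg _)
        exact_mod_cast le_max_right _ _
    refine ⟨max m k, C * m, by positivity, fun u hu => ?_⟩
    obtain ⟨u', w, rfl, hu', hw⟩ := List.map_eq_append_iff.1 hu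
    obtain ⟨p, w', rfl, hp, hw'⟩ := List.map_eq_cons_iff.1 hw
    obtain rfl := List.map_eq_nil_iff.1 hw'
    subst hp
    have h1 := h ⟨u', hu'⟩ p.2
    rw [aq_snoc, snw_snoc]
    refine (le_of_eq rfl).trans (h1.trans ?_)
    have h2 : snw m u' * sn k p.2 ≤ snw (max m k) u' * sn (max m k) p.2 :=
      mul_le_mul (snw_mono (le_max_left _ _) _) (sn_mono (le_max_right _ _) _) (sn0 _ _) (snw0 _ _)
    calc C * (m * snw m u') * sn k p.2 = C * m * (snw m u' * sn k p.2) := by ring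
      _ ≤ _ := mul_le_mul_of_nonneg_left h2 (by positivity)

end Tp

open EG.H.JBp (sn0 sn_mono snw_cons snw0 snw_mono snw_snoc) in
open EG.H.Tmp (CS BS inn) in
open Tp in
/-- **tempered bounds from slots** -/
theorem tmp_sum {x : Lt c Λ} (t : E1 x) (h : ∀ a, Sum1 x a) : TMP x := by
  refine tmp_of t fun ls => ?_
  choose S S' s h using h
  obtain ⟨m, C, hC, j⟩ := jb t s ls _ t.ops.d_vac
  choose C1 e hC1 h using fun a => h a m
  obtain ⟨C', hC', hd⟩ := t.ana.dil m
  have key : ∀ ls : List Λ, ∃ (κ : ℝ) (M : ℕ), 0 ≤ κ ∧ ∀ (k : ℕ) (u : List (Λ × Sch)),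
      u.map Prod.fst = ls → BS (2 ^ k) u → ∃ w : List (Λ × Sch), w.map Prod.fst = ls ∧
        snw m w ≤ κ * (2 ^ k) ^ M * snw m u ∧
        x.ap (evw u) c.Om = (d2k c.toCf k).U c.toCf (aq S w c.Om) := fun ls => by
    induction ls with
    | nil =>
      refine ⟨1, 0, zero_le_one, fun k u hu _ => ⟨[], rfl, ?_, ?_⟩⟩
      · obtain rfl := List.map_eq_nil_iff.1 hu
        simp
      · obtain rfl := List.map_eq_nil_iff.1 hu
        exact (t.sg.vac _).1.symm
    | cons a ls ih =>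
      obtain ⟨κ, M, hκ, ih⟩ := ih
      refine ⟨C1 a * C' * κ, e a + m + M, by have := hC1 a; positivity, fun k u hu hB => ?_⟩
      obtain ⟨p, u, rfl, hp, hw⟩ := List.map_eq_cons_iff.1 hu
      obtain ⟨a', f⟩ := p
      obtain rfl : a' = a := hp
      obtain ⟨h1, h2⟩ := List.forall_mem_cons.1 hB
      obtain ⟨w, w1, w2, w3⟩ := ih k u hw h2
      obtain ⟨P, hP⟩ := t.sg.clm (d2k c.toCf k)
      have h0 : (1 : ℝ) ≤ 2 ^ k := one_le_pow₀ one_le_two
      have hc : HasCompactSupport f := hB.cs _ List.mem_cons_self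
      obtain ⟨F, f1, f2⟩ := h a' k f (P f) (hP f) (fun y hy => by
        have h3 := (t.sg.inn (d2k c.toCf k) _ _ ⟨⟨f, rfl⟩, hc, h1⟩).2.2 (by rw [← hP]; exact hy)
        rw [Set.mem_preimage, d2k, dl0_act, mem_closedBall_zero_iff, norm_smul,
          Real.norm_of_nonneg (by linarith)] at h3
        rw [mem_closedBall_zero_iff]
        exact le_of_mul_le_mul_left (by linarith) (by linarith : (0 : ℝ) < 2 ^ k)) hc
      refine ⟨(a', F) :: w, by rw [List.map_cons, w1], ?_, ?_⟩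
      · have h4 := hd (2 ^ k) f (P f) h0 fun y => congrFun (hP f) y
        have := hC1 a'
        have := sn0 m f
        have := snw0 m u
        rw [snw_cons, snw_cons]
        calc sn m F * snw m w ≤ (C1 a' * (2 ^ k) ^ e a' * (C' * (2 ^ k) ^ m * sn m f)) *
              (κ * (2 ^ k) ^ M * snw m u) :=
              mul_le_mul (f1.trans (by gcongr)) w2 (snw0 _ _) (by positivity)
          _ = _ := by rw [pow_add, pow_add]; ring
      · rw [Tq.ap_cons, w3, f2 _ (aq_mem s w t.ops.d_vac)]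
        rfl
  obtain ⟨κ, M, hκ, key⟩ := key ls
  refine ⟨m, M, C * κ * 2 ^ M, by positivity, fun R u hR hu hB => ?_⟩
  obtain ⟨k, k1, k2⟩ := exists_nat_pow_near hR one_lt_two
  obtain ⟨w, w1, w2, w3⟩ := key (k + 1) u hu fun p hp =>
    (hB p hp).trans (closedBall_subset_closedBall k2.le)
  rw [w3, ContinuousLinearMap.norm_map_of_mem_unitary (t.sg.uni _)]
  refine (j w w1).trans ?_
  have := snw0 m u
  have h5 : (2 : ℝ) ^ (k + 1) ≤ 2 * R := by rw [pow_succ]; linarith
  calc C * snw m w ≤ C * (κ * (2 * R) ^ M * snw m u) :=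
        mul_le_mul_of_nonneg_left (w2.trans (by gcongr)) hC
    _ = _ := by rw [mul_pow]; ring

/-- a letter with a scaling dimension -/
theorem sum1_of {x : Lt c Λ} (t : E1 x) (a : Λ) (e : ℕ) (κ : ℕ → ℂ) (hκ : ∀ k, ‖κ k‖ ≤ (2 ^ k) ^ e)
    (h : ∀ k, x.Cv a (d2k c.toCf k) (fun _ : Fin 1 => κ k) fun _ => a) : Sum1 x a := by
  refine ⟨fun F => x.op a (cutf 0 (ev F)), fun F => x.op (x.dag a) (bar (cutf 0 (ev F))),
    ⟨fun F v hv => t.ops.mem _ _ _ (Jq.inn t F) hv, fun F v hv => t.ops.mem _ _ _ (Jq.inn t F).bar hv,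
      fun F z v w hv hw => ?_, fun F G z v hv => Jq.op_lin t a hv F G z, fun F v w hv hw => ?_,
      fun v hv => t.ops.cont a 0 v hv⟩, fun m => ⟨1, e, zero_le_one, fun k f g e1 e2 hc =>
        ⟨κ k • g, ?_, fun v hv => ?_⟩⟩⟩
  · rw [t.ops.add _ _ _ _ (Jq.inn t F) hv (t.ops.d_smul _ _ hw), t.ops.smul _ _ _ _ (Jq.inn t F) hw]
  · have := t.ops.herm (x.dag a) _ w v (Jq.inn t F).bar hw hv
    rw [this, x.dag2, bar_bar]
  · rw [Api4.sn_eq, Api4.sn_eq, one_mul]
    exact (ST.sn_smul _ g m).trans (mul_le_mul_of_nonneg_right (hκ k) (apply_nonneg _ _))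
  · have h1 := Jq.op_lin t a hv 0 g (κ k)
    have h0 := Jq.op_lin t a hv 0 0 1
    rw [smul_zero, add_zero, one_smul, left_eq_add] at h0
    rw [zero_add, h0, zero_add, t.ana.eq 0 (ev g) (by simpa using! e2)] at h1
    show _ = (d2k c.toCf k).U c.toCf (x.op a (cutf 0 (ev (κ k • g))) v)
    rw [t.ops.cov a _ 1 _ _ _ v (h k) (EG.H.Tmp.inn hc) hv, Fin.sum_univ_one, h1, map_smul, e1]

/-- the potential -/
theorem sum1_none (hc : COV c.toCf) (t : E1 (lx hc)) : Sum1 (lx hc) none :=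
  sum1_of t none 2 (fun k => (((2 ^ k : ℝ) ^ 2 : ℝ) : ℂ)) (fun k => by
    rw [Complex.norm_real, Real.norm_of_nonneg (by positivity)]) fun k f hf => by
      rw [Fin.sum_univ_one, Complex.conj_ofReal]
      exact pot_U c (d2k c.toCf k) hf

end

end Vale.Agent.N352.EP
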