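import Vale.Agent.N352.EP.Tp
import Vale.Agent.N352.EP.Pot

/-!
# N352, block EP: energy bounds that are uniform in the test function
-/

set_option linter.all false

open MeasureTheory Filter Topology Metric
open scoped SchwartzMap ComplexConjugate ContDiff

namespace Vale.Agent.N352.EP

open Vale.Agent.P352 Vale.Agent.P352.GF Vale.Agent.P352.BW Vale.Agent.P352.H246
open Vale.Agent.P352.H496 Vale.Agent.P352.H755 Vale.Agent.P352.H15
open Vale.Agent.P352.SubConf (IsAdj)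
open Vale.Agent.P352X Vale.Agent.P352X.EB
open UniformSpace (Completion)

noncomputable section

namespace Ub

open Dy EG.H.JBp
open Vale.Agent.P352X.ST (tsl tsl_apply)

/-- the piece of a function near `y`, moved to the origin -/
def pc (y : V) : Sch →L[ℂ] Sch := SchwartzMap.smulLeftCLM ℂ (ch 0) ∘L tsl (-y)

theorem pc_apply (y : V) (F : Sch) (z : V) : pc y F z = ch 0 z * F (z + y) :=
  (cu_apply 0 (tsl (-y) F) z).trans (by rw [tsl_apply, sub_neg_eq_add])

theorem pc_supp (y : V) (F : Sch) : tsupport (pc y F) ⊆ closedBall 0 2 := by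
  simpa using! cu_supp 0 (tsl (-y) F)

theorem ch_cpt : HasCompactSupport (ch 0) :=
  cpt (r := 2) (Ap.tsupp_sub isClosed_closedBall fun z hz => by
    rw [mem_closedBall_zero_iff]
    by_contra h
    exact hz (ch_zero (by simpa using (not_le.1 h).le)))

theorem sn_pc (m N : ℕ) : ∃ C : ℝ, 0 ≤ C ∧ ∀ y F,
    sn m (pc y F) ≤ C / (1 + ‖y‖) ^ N * sn (m + N) F := by
  let g : Sch := ch_cpt.toSchwartzMap (ch_temp 0).1
  have b := ST.bd_sch g (k := m + N) (n := m) (N := m + N) le_rfl (Nat.le_add_right _ _)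
  refine ⟨2 ^ m * (2 ^ (m + N) * ST.sn V ℂ (m + N) g) * 2 ^ (m + N), by positivity, fun y F => ?_⟩
  have b' := (ST.bd_sch F (k := N) (n := m) (N := m + N) (Nat.le_add_left _ _)
    (Nat.le_add_right _ _)).add_const y
  rw [Api4.sn_eq, Api4.sn_eq]
  refine ((b.mul b').congr (pc_apply y F)).sn_le fun z => ?_
  have h1 : (1 + ‖y‖) ^ N ≤ (1 + ‖z‖) ^ N * (1 + ‖z + y‖) ^ N := by
    rw [← mul_pow]
    gcongr
    have := ST.peetre y (-z)
    rwa [norm_neg, sub_neg_eq_add, add_comm y z] at this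
  have p1 : (0 : ℝ) < 1 + ‖z‖ := by positivity
  have p2 : (0 : ℝ) < 1 + ‖z + y‖ := by positivity
  have p3 : (0 : ℝ) < 1 + ‖y‖ := by positivity
  have p4 : 0 ≤ ST.sn V ℂ (m + N) g := apply_nonneg _ _
  have p5 : 0 ≤ ST.sn V ℂ (m + N) F := apply_nonneg _ _
  calc _ = 2 ^ m * (2 ^ (m + N) * ST.sn V ℂ (m + N) g) * 2 ^ (m + N) /
        ((1 + ‖z‖) ^ N * (1 + ‖z + y‖) ^ N) * ST.sn V ℂ (m + N) F := by
        rw [pow_add (1 + ‖z‖)]
        field_simp
    _ ≤ _ := by gcongr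

/-- a family of maps that is bounded on the translates of functions with small support -/
theorem ub {H : Type*} [NormedAddCommGroup H] [NormedSpace ℂ H] [CompleteSpace H] (m : ℕ) :
    ∃ C : ℝ, 0 ≤ C ∧ ∀ (Λ : Sch →L[ℂ] H) (κ : ℝ), 0 ≤ κ →
      (∀ y (g : Sch), tsupport g ⊆ closedBall 0 2 → ‖Λ (tsl y g)‖ ≤ κ * sn m g) →
      ∀ F, ‖Λ F‖ ≤ C * κ * sn (m + 5) F := by
  have i5 : Integrable fun y : V => ((1 + ‖y‖) ^ 5)⁻¹ := by
    have := integrable_one_add_norm (E := V) (μ := volume) (r := 5) (by simp; norm_num)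
    refine this.congr (Eventually.of_forall fun y => ?_)
    show (1 + ‖y‖) ^ (-(5 : ℝ)) = _
    rw [Real.rpow_neg (by positivity), show (5 : ℝ) = (5 : ℕ) by norm_num, Real.rpow_natCast]
  let J : ℝ := ∫ y : V, chi0 (Dy.ctr 0 y)
  have c0 : ∀ y : V, Dy.ctr 0 y = y := fun y => by simp [Dy.ctr]
  have hJ : 0 < J := by
    simp only [J, c0]
    exact chi0.integral_pos
  obtain ⟨C, hC, h⟩ := sn_pc m 5
  refine ⟨J⁻¹ * (C * ∫ y : V, ((1 + ‖y‖) ^ 5)⁻¹), by positivity, fun Λ κ hκ hΛ F => ?_⟩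
  have s : ST.SInt (fun y : V => tsl y (pc y F)) volume := by
    refine ST.SInt.of_sn (Continuous.aestronglyMeasurable ?_) fun N => ?_
    · exact ST.continuous_tsl.comp (continuous_id.prodMk ((SchwartzMap.smulLeftCLM ℂ
        (ch 0)).continuous.comp (ST.continuous_tsl.comp (continuous_neg.prodMk continuous_const))))
    · obtain ⟨C', hC', h'⟩ := sn_pc N (N + 5)
      refine ⟨_, i5.const_mul (2 ^ N * C' * sn (N + (N + 5)) F), Eventually.of_forall fun y => ?_⟩
      refine (ST.sn_tsl _ y N).trans ?_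
      have := h' y F
      rw [Api4.sn_eq] at this
      have p3 : (0 : ℝ) < 1 + ‖y‖ := by positivity
      calc _ ≤ 2 ^ N * (1 + ‖y‖) ^ N * (C' / (1 + ‖y‖) ^ (N + 5) * sn (N + (N + 5)) F) := by gcongr
        _ = _ := by
          rw [pow_add (1 + ‖y‖)]
          field_simp
  obtain ⟨a, b⟩ := s.clm (g := (J : ℂ) • F) (fun z => by
    simp only [tsl_apply, pc_apply, sub_add_cancel]
    rw [integral_mul_const, integral_sub_left_eq_self (ch 0) volume z]
    show (J : ℂ) * _ = (∫ y : V, ((chi0 (Dy.ctr 0 y) : ℝ) : ℂ)) * _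
    rw [integral_complex_ofReal]) Λ
  rw [map_smul] at b
  have e : ‖Λ F‖ = J⁻¹ * ‖(J : ℂ) • Λ F‖ := by
    rw [norm_smul, Complex.norm_real, Real.norm_of_nonneg hJ.le, inv_mul_cancel_left₀ hJ.ne']
  rw [e, b, mul_assoc, mul_assoc]
  refine mul_le_mul_of_nonneg_left ?_ (inv_pos.2 hJ).le
  refine (norm_integral_le_of_norm_le (i5.const_mul (C * κ * sn (m + 5) F))
    (Eventually.of_forall fun y => (hΛ y _ (pc_supp y F)).trans ?_)).trans (le_of_eq ?_)
  · refine (mul_le_mul_of_nonneg_left (h y F) hκ).trans (le_of_eq ?_)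
    ring
  · rw [integral_const_mul]
    ring

end Ub

variable {D : Type*} [NormedAddCommGroup D] [InnerProductSpace ℂ D] {c : Cf D}

open Ub Dy EG.H.JBp in
/-- **uniform energy bounds** -/
theorem eb_sn {B : Fld D} (hB : c.Q.fld B) (hE : EB1 c.Q B) : ∃ (k m : ℕ) (C : ℝ), 0 ≤ C ∧
    ∀ F v, ‖B (ev F) v‖ ≤ C * sn m F * en c.Q k v := by
  obtain ⟨k, hk⟩ := hE
  have t := e0_thm c
  haveI := t.ana.baire
  let P : Sch →L[ℂ] Sch := SchwartzMap.smulLeftCLM ℂ (ch 1)
  obtain ⟨n, m, C, hC, h⟩ := ubp (fun v : D => (Grp.fC hB v ∘L P).toLinearMap)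
    (fun v => (Grp.fC hB v ∘L P).continuous) (fun n v => n * en c.Q k v) fun f => by
      obtain ⟨C, h⟩ := hk (ev (cu 1 f)) (EG.H.Tmp.inn (cpt (cu_supp 1 f)))
      exact ⟨⌈C⌉₊, fun v => (h v).trans (mul_le_mul_of_nonneg_right (Nat.le_ceil C)
        (H246.en_nonneg k v))⟩
  obtain ⟨C', hC', h'⟩ := ub (H := Completion D) m
  refine ⟨k, m + 5, C' * (C * n), by positivity, fun F v => ?_⟩
  have e0 := H246.en_nonneg (Q := c.Q) k v
  have := h' (Completion.toComplL ∘L Grp.fC hB v) (C * (n * en c.Q k v)) (by positivity)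
    (fun y g hg => ?_) F
  · refine (Completion.norm_coe _).symm.trans_le (this.trans (le_of_eq ?_))
    ring
  have e1 : P g = g := by
    ext z
    refine (cu_apply 1 g z).trans ?_
    by_cases hz : z ∈ tsupport g
    · rw [ch_one (by simpa using hg hz), one_mul]
    · rw [image_eq_zero_of_notMem_tsupport hz, mul_zero]
  have h2 := h (c.Q.U 1 GF.one (-y) v) g
  simp only [ContinuousLinearMap.coe_coe, ContinuousLinearMap.comp_apply, e1, t.wb.inv] at h2
  refine (Completion.norm_coe _).trans_le (le_trans (le_of_eq ?_) h2)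
  have h3 := c.Q.transl B (-y) (ev g) v hB ⟨g, rfl⟩
  rw [Grp.fC_apply, h3, H246.U_nrm0 one_pos H496.isLor_one]
  show ‖B (ev (ST.tsl y g)) v‖ = _
  congr 2
  funext x
  rw [HM.sim_tr]
  exact congrArg g (sub_eq_add_neg x y)

end

end Vale.Agent.N352.EP
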